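import Vale.Agent.P110.Delay.Spectrum

/-!
P110: a sign sequence that almost obeys a recurrence with a dominant block is periodic, and a window
of a flat polynomial is not almost periodic.
-/

namespace Vale.Agent.P110.Dense

open Finset Polynomial Complex Vale.Agent.P110.Window Vale.Agent.P110.Delay

/-- The filtered sequence. -/
def out (p : ℝ[X]) (d : ℕ) (h : ℕ → ℝ) (i : ℕ) : ℝ := ∑ j ∈ range (d + 1), p.coeff j * h (i + j)

theorem periodic_of_step {L : ℕ} {x : ℕ → ℝ} (hx : ∀ i ≤ 2 ^ L + period L + L, |x i| = 1)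
    (hstep : ∀ i i', i ≤ 2 ^ L + period L → i' ≤ 2 ^ L + period L →
      (∀ j < L, x (i + j) = x (i' + j)) → x (i + L) = x (i' + L)) :
    x (2 ^ L + period L) = x (2 ^ L) := by
  classical
  obtain ⟨i₁, h1, i₂, h2, hne, heq⟩ := exists_ne_map_eq_of_card_lt_of_maps_to
    (s := range (2 ^ L + 1)) (t := (univ : Finset (Fin L → Bool)))
    (by simp) (f := fun i m => decide (x (i + (m : ℕ)) = 1)) (fun i _ => mem_coe.2 (mem_univ _))
  wlog hlt : i₁ < i₂ generalizing i₁ i₂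
  · exact this i₂ h2 i₁ h1 hne.symm heq.symm (by omega)
  have hi2 : i₂ ≤ 2 ^ L := by rw [mem_range] at h2; omega
  have hcase : ∀ i ≤ 2 ^ L + period L + L, x i = 1 ∨ x i = -1 := fun i hi => by
    have := hx i hi
    rwa [abs_eq zero_le_one] at this
  have key : ∀ m, i₂ + m ≤ 2 ^ L + period L → x (i₁ + m) = x (i₂ + m) := by
    intro m
    induction m using Nat.strong_induction_on with
    | _ m ih =>
      intro hm
      rcases lt_or_ge m L with hmd | hmd
      · have := congrFun heq ⟨m, hmd⟩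
        simp only [decide_eq_decide] at this
        rcases hcase (i₁ + m) (by omega) with e1 | e1 <;>
          rcases hcase (i₂ + m) (by omega) with e2 | e2 <;>
          simp_all
      · obtain ⟨u, rfl⟩ : ∃ u, m = u + L := ⟨m - L, by omega⟩
        have h := hstep (i₁ + u) (i₂ + u) (by omega) (by omega) fun j hj => by
          rw [add_assoc, add_assoc]
          exact ih (u + j) (by omega) (by omega)
        rwa [add_assoc, add_assoc] at h
  obtain ⟨n, hn⟩ : i₂ - i₁ ∣ period L := Nat.dvd_factorial (by omega) (by omega)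
  suffices h : ∀ j ≤ n, x (2 ^ L + (i₂ - i₁) * j) = x (2 ^ L) by
    have := h n le_rfl
    rwa [← hn] at this
  intro j hj
  induction j with
  | zero => simp
  | succ j ih =>
    have hle : (i₂ - i₁) * (j + 1) ≤ period L := hn ▸ Nat.mul_le_mul_left _ hj
    have hexp : (i₂ - i₁) * (j + 1) = (i₂ - i₁) * j + (i₂ - i₁) := Nat.mul_succ _ _
    rw [← ih (by omega)]
    have := key (2 ^ L + (i₂ - i₁) * j - i₁) (by omega)
    rw [show i₁ + (2 ^ L + (i₂ - i₁) * j - i₁) = 2 ^ L + (i₂ - i₁) * j by omega,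
      show i₂ + (2 ^ L + (i₂ - i₁) * j - i₁) = 2 ^ L + (i₂ - i₁) * (j + 1) by omega] at this
    exact this.symm

/-- Where the filtered sequence is small, a block of length `L` determines the next sign. -/
theorem det_step {p : ℝ[X]} {m L : ℕ} (htop : 15 / 16 ≤ |p.coeff (m + L)|)
    (hout : ∑ j ∈ (range (2 * (m + L) + 1)).filter (fun j => j < m ∨ m + L < j), |p.coeff j| ≤
      1 / 16) {h : ℕ → ℝ} {i i' : ℕ} (hh : ∀ j ≤ 2 * (m + L), |h (i + j)| = 1 ∧ |h (i' + j)| = 1)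
    (hy : |out p (2 * (m + L)) h i| < 1 / 2) (hy' : |out p (2 * (m + L)) h i'| < 1 / 2)
    (heq : ∀ j < L, h (i + m + j) = h (i' + m + j)) : h (i + m + L) = h (i' + m + L) := by
  classical
  by_contra hne
  set M := m + L
  have hMi : ∀ q : ℕ, q + m + L = q + M := fun q => by omega
  rw [hMi, hMi] at hne
  obtain ⟨f, hf⟩ : ∃ f : ℕ → ℝ, f = fun j => p.coeff j * (h (i + j) - h (i' + j)) := ⟨_, rfl⟩
  have hsum : out p (2 * M) h i - out p (2 * M) h i' = ∑ j ∈ range (2 * M + 1), f j := by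
    rw [out, out, hf, ← sum_sub_distrib]
    exact sum_congr rfl fun j _ => by ring
  have hdec : ∀ j ∈ range (2 * M + 1), f j = (if j = M then f M else 0) +
      (if j < m ∨ M < j then f j else 0) := by
    intro j hj
    by_cases h1 : j = M
    · subst h1; simp only [if_true]; rw [if_neg (by omega), add_zero]
    · rw [if_neg h1, zero_add]
      split_ifs with h2
      · rfl
      · obtain ⟨t, rfl⟩ : ∃ t, j = m + t := ⟨j - m, by omega⟩
        have := heq t (by omega)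
        rw [hf]
        simp only [← add_assoc, this, sub_self, mul_zero]
  rw [sum_congr rfl hdec, sum_add_distrib, sum_ite_eq', if_pos (mem_range.2 (by omega)),
    ← sum_filter] at hsum
  have hrest : |∑ j ∈ (range (2 * M + 1)).filter (fun j => j < m ∨ M < j), f j| ≤ 2 * (1 / 16) := by
    refine (abs_sum_le_sum_abs _ _).trans ((sum_le_sum fun j hj => ?_).trans
      ((mul_sum _ _ _).symm.trans_le (mul_le_mul_of_nonneg_left hout zero_le_two)))
    have hj' := mem_range.1 (mem_filter.1 hj).1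
    obtain ⟨a1, a2⟩ := hh j (by omega)
    rw [hf, abs_mul, mul_comm]
    refine mul_le_mul_of_nonneg_right ((abs_sub _ _).trans ?_) (abs_nonneg _)
    rw [a1, a2]; norm_num
  have hMne : 2 ≤ |h (i + M) - h (i' + M)| := by
    obtain ⟨a1, a2⟩ := hh M (by omega)
    rcases (abs_eq zero_le_one).1 a1 with e1 | e1 <;>
      rcases (abs_eq zero_le_one).1 a2 with e2 | e2 <;> rw [e1, e2] at hne ⊢ <;>
      first | exact absurd rfl hne | norm_num
  have hfM : 15 / 8 ≤ |f M| := by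
    rw [hf, abs_mul]
    refine le_trans (by norm_num) (mul_le_mul htop hMne zero_le_two (abs_nonneg _))
  have h3 := abs_add_le (f M + ∑ j ∈ (range (2 * M + 1)).filter (fun j => j < m ∨ M < j), f j)
    (-∑ j ∈ (range (2 * M + 1)).filter (fun j => j < m ∨ M < j), f j)
  rw [add_neg_cancel_right, abs_neg, ← hsum] at h3
  have h4 := abs_sub (out p (2 * M) h i) (out p (2 * M) h i')
  linarith

/-- A finite exponential sum approximating the tent at `0`, moved to another centre. -/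
theorem approx_shift {r ε : ℝ} {n : ℕ} {a : Fin n → ℂ} {lam : Fin n → ℝ}
    (happ : ∀ x : ℝ, ‖(tent 0 r x : ℂ) - expSum a lam x‖ ≤ ε) (c : ℝ) :
    ∃ a' : Fin n → ℂ, (∀ m, ‖a' m‖ = ‖a m‖) ∧
      ∀ x : ℝ, ‖(tent c r x : ℂ) - expSum a' lam x‖ ≤ ε := by
  refine ⟨fun m => a m * exp (I * (-(lam m * c) : ℝ)), fun m => ?_, fun x => ?_⟩
  · rw [norm_mul, norm_exp]
    simp
  · have e : expSum (fun m => a m * exp (I * (-(lam m * c) : ℝ))) lam x = expSum a lam (x - c) := by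
      simp only [expSum, mul_assoc, ← exp_add]
      refine sum_congr rfl fun m _ => ?_
      congr 2
      push_cast
      ring
    have := happ (x - c)
    rwa [tent_shift, zero_add, ← e] at this

/-- A window of a polynomial bounded on the circle is far from periodic. -/
theorem window_energy {c r ε : ℝ} {n : ℕ} (a : Fin n → ℂ) (lam : Fin n → ℝ)
    (happ : ∀ x : ℝ, ‖(tent c r x : ℂ) - expSum a lam x‖ ≤ ε) {A : ℝ} (hA : ∑ m, ‖a m‖ ≤ A)
    {h : ℕ → ℝ} {N : ℕ} (hN : 0 < N) (hh : ∀ k < N, |h k| = 1)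
    (hup : ∀ z : ℂ, ‖z‖ = 1 → ‖pol h N z‖ ≤ 2 * Real.sqrt N) {P J : ℕ} (hP : 0 < P) (hJ : 0 < J)
    (hJP : J * P < N) :
    ∑ k ∈ range N, (tent c r ((k : ℝ) / N) * h k) ^ 2 ≤ 16 * A ^ 2 * N / J + 4 * ε ^ 2 * N +
      2 * (J : ℝ) ^ 2 * ∑ k ∈ range N,
        (tent c r ((((k + P) % N : ℕ) : ℝ) / N) * h ((k + P) % N) -
          tent c r ((k : ℝ) / N) * h k) ^ 2 := by
  classical
  obtain ⟨ζ, hζ⟩ : ∃ ζ : ℂ, IsPrimitiveRoot ζ N := ⟨_, Complex.isPrimitiveRoot_exp N hN.ne'⟩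
  have hNr : (0 : ℝ) < N := Nat.cast_pos.2 hN
  have hJr : (0 : ℝ) < J := Nat.cast_pos.2 hJ
  have hone : ∀ s, (ζ ^ s) ^ N = 1 := fun s => by
    rw [← pow_mul, mul_comm, pow_mul, hζ.pow_eq_one, one_pow]
  have hz : ∀ s, ‖ζ ^ s‖ = 1 := fun s => by rw [norm_pow, hζ.norm'_eq_one hN.ne', one_pow]
  obtain ⟨v, hv⟩ : ∃ v : ℕ → ℂ, v = fun k : ℕ => (tent c r ((k : ℝ) / N) : ℂ) * h k := ⟨_, rfl⟩
  obtain ⟨T, hT⟩ : ∃ T : ℕ → ℂ, T = fun s => ∑ k ∈ range N, v k * (ζ ^ s) ^ k := ⟨_, rfl⟩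
  obtain ⟨e, he⟩ : ∃ e : ℕ → ℝ, e = fun s => ‖T s - wpol (expSum a lam) h N (ζ ^ s)‖ := ⟨_, rfl⟩
  have hA0 : 0 ≤ A := le_trans (Finset.sum_nonneg fun _ _ => norm_nonneg _) hA
  have herr : ∑ s ∈ range N, e s ^ 2 ≤ ε ^ 2 * N * N := by
    have eq : ∀ s, T s - wpol (expSum a lam) h N (ζ ^ s) = ∑ i ∈ range N,
        (((tent c r ((i : ℝ) / N) : ℂ) - expSum a lam ((i : ℝ) / N)) * h i) * (ζ ^ s) ^ i :=
      fun s => by simp only [hT, hv, wpol, ← sum_sub_distrib, sub_mul]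
    simp only [he, eq]
    rw [parseval hζ hN]
    have h1 : ∑ i ∈ range N, ‖((tent c r ((i : ℝ) / N) : ℂ) - expSum a lam ((i : ℝ) / N)) *
        (h i : ℂ)‖ ^ 2 ≤ ∑ _i ∈ range N, ε ^ 2 := sum_le_sum fun i hi => by
      rw [norm_mul, Complex.norm_real, Real.norm_eq_abs, hh i (mem_range.1 hi), mul_one]
      exact pow_le_pow_left₀ (norm_nonneg _) (happ _) 2
    rw [sum_const, card_range, nsmul_eq_mul] at h1
    nlinarith
  have hTb : ∀ s, ‖T s‖ ^ 2 ≤ 8 * A ^ 2 * N + 2 * e s ^ 2 := fun s => by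
    have h1 : ‖wpol (expSum a lam) h N (ζ ^ s)‖ ≤ 2 * A * Real.sqrt N := by
      rw [wpol_expSum]
      refine (norm_sum_le _ _).trans ?_
      calc ∑ m, ‖a m * pol h N (ζ ^ s * exp (I * (lam m / N : ℝ)))‖
          ≤ ∑ m, ‖a m‖ * (2 * Real.sqrt N) := sum_le_sum fun m _ => by
            rw [norm_mul]
            refine mul_le_mul_of_nonneg_left (hup _ ?_) (norm_nonneg _)
            rw [norm_mul, hz, one_mul, norm_exp]
            simp
        _ ≤ _ := by
            rw [← sum_mul]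
            nlinarith [mul_le_mul_of_nonneg_right hA (show 0 ≤ 2 * Real.sqrt N by positivity)]
    have h2 : ‖T s‖ ≤ 2 * A * Real.sqrt N + e s := by
      have := norm_le_norm_add_norm_sub' (T s) (wpol (expSum a lam) h N (ζ ^ s))
      simp only [he]
      linarith
    have he0 : 0 ≤ e s := by rw [he]; exact norm_nonneg _
    refine (pow_le_pow_left₀ (norm_nonneg _) h2 2).trans ?_
    nlinarith [sq_nonneg (2 * A * Real.sqrt N - e s), Real.mul_self_sqrt hNr.le]
  obtain ⟨G, hG⟩ : ∃ G : ℕ → ℂ, G = fun s => ∑ i ∈ range J, ((ζ ^ s) ^ P) ^ i := ⟨_, rfl⟩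
  have hGsum : ∑ s ∈ range N, ‖G s‖ ^ 2 = N * J := by
    have hsub : (range J).image (· * P) ⊆ range N := fun i hi => by
      obtain ⟨j, hj, rfl⟩ := mem_image.1 hi
      exact mem_range.2 (lt_of_le_of_lt (Nat.mul_le_mul_right P (mem_range.1 hj).le) hJP)
    have h1 := parseval hζ hN fun i => if i ∈ (range J).image (· * P) then (1 : ℂ) else 0
    have h2 : ∀ s, ∑ i ∈ range N, (if i ∈ (range J).image (· * P) then (1 : ℂ) else 0) *
        (ζ ^ s) ^ i = G s := fun s => by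
      simp only [ite_mul, one_mul, zero_mul]
      rw [sum_ite_mem, inter_eq_right.2 hsub,
        sum_image fun a _ b _ hab => Nat.eq_of_mul_eq_mul_right hP hab, hG]
      simp only [← pow_mul]
      exact sum_congr rfl fun i _ => by congr 1; ring
    simp only [h2] at h1
    rw [h1]
    congr 1
    simp only [apply_ite (fun x : ℂ => ‖x‖ ^ 2), norm_one, norm_zero, one_pow, ne_eq,
      OfNat.ofNat_ne_zero, not_false_eq_true, zero_pow]
    rw [sum_ite_mem, inter_eq_right.2 hsub, sum_const,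
      card_image_of_injective _ fun a b hab => Nat.eq_of_mul_eq_mul_right hP hab, card_range]
    simp
  obtain ⟨Δ, hΔ⟩ : ∃ Δ : ℕ → ℝ, Δ = fun k : ℕ => tent c r ((((k + P) % N : ℕ) : ℝ) / N) *
      h ((k + P) % N) - tent c r ((k : ℝ) / N) * h k := ⟨_, rfl⟩
  have hdiff : ∑ s ∈ range N, (‖(ζ ^ s) ^ P - 1‖ * ‖T s‖) ^ 2 = N * ∑ k ∈ range N, Δ k ^ 2 := by
    have e1 : ∀ s, ‖(ζ ^ s) ^ P - 1‖ * ‖T s‖ =
        ‖∑ k ∈ range N, (v ((k + P) % N) - v k) * (ζ ^ s) ^ k‖ := fun s => by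
      have e : (∑ k ∈ range N, (v ((k + P) % N) - v k) * (ζ ^ s) ^ k) * (ζ ^ s) ^ P =
          T s * (1 - (ζ ^ s) ^ P) := by
        simp only [sub_mul, sum_sub_distrib]
        rw [sum_shift hN (hone s) v P, hT]
        ring
      have e' := congrArg norm e
      rw [norm_mul, norm_mul, norm_pow, hz, one_pow, mul_one, norm_sub_rev] at e'
      rw [e', mul_comm]
    simp only [e1]
    rw [parseval hζ hN fun k => v ((k + P) % N) - v k]
    refine congrArg ((N : ℝ) * ·) (sum_congr rfl fun k _ => ?_)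
    simp only [hv, hΔ]
    rw [← ofReal_mul, ← ofReal_mul, ← ofReal_sub, Complex.norm_real, Real.norm_eq_abs, sq_abs]
  have hpt : ∀ s, (J : ℝ) ^ 2 * ‖T s‖ ^ 2 ≤ 16 * A ^ 2 * N * ‖G s‖ ^ 2 +
      4 * (J : ℝ) ^ 2 * e s ^ 2 + 2 * (J : ℝ) ^ 4 * (‖(ζ ^ s) ^ P - 1‖ * ‖T s‖) ^ 2 := fun s => by
    set u := (ζ ^ s) ^ P
    have hu : ‖u‖ = 1 := by rw [norm_pow, hz, one_pow]
    have hGJ : ‖G s‖ ≤ J := by
      simp only [hG]
      refine (norm_sum_le _ _).trans (le_of_eq ?_)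
      simp [u, hu]
    have h1 : (J : ℝ) ≤ ‖G s‖ + (J : ℝ) ^ 2 * ‖u - 1‖ := by
      have h2 : ‖(J : ℂ) - G s‖ ≤ (J : ℝ) ^ 2 * ‖u - 1‖ := by
        have e : (J : ℂ) - G s = ∑ i ∈ range J, (1 - u ^ i) := by
          simp [hG, sum_sub_distrib, u]
        rw [e]
        refine (norm_sum_le _ _).trans ((sum_le_card_nsmul _ _ ((J : ℝ) * ‖u - 1‖)
          fun i hi => ?_).trans_eq ?_)
        · rw [norm_sub_rev, ← geom_sum_mul, norm_mul]
          refine mul_le_mul_of_nonneg_right ((norm_sum_le _ _).trans ?_) (norm_nonneg _)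
          simp only [norm_pow, hu, one_pow, sum_const, card_range, nsmul_eq_mul, mul_one]
          exact Nat.cast_le.2 (mem_range.1 hi).le
        · rw [card_range, nsmul_eq_mul]; ring
      have := norm_sub_norm_le (J : ℂ) (G s)
      rw [Complex.norm_natCast] at this
      linarith
    have h2 := pow_le_pow_left₀ (by positivity)
      (mul_le_mul_of_nonneg_right h1 (norm_nonneg (T s))) 2
    have h3 : ‖G s‖ ^ 2 ≤ (J : ℝ) ^ 2 := pow_le_pow_left₀ (norm_nonneg _) hGJ 2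
    have h4 := mul_le_mul_of_nonneg_left (hTb s) (sq_nonneg ‖G s‖)
    have h5 := mul_le_mul_of_nonneg_right h3 (sq_nonneg (e s))
    nlinarith [sq_nonneg (‖G s‖ * ‖T s‖ - (J : ℝ) ^ 2 * ‖u - 1‖ * ‖T s‖)]
  have hsum := sum_le_sum fun s (_ : s ∈ range N) => hpt s
  have hTsum : ∑ s ∈ range N, ‖T s‖ ^ 2 =
      N * ∑ k ∈ range N, (tent c r ((k : ℝ) / N) * h k) ^ 2 := by
    simp only [hT]
    rw [parseval hζ hN]
    refine congrArg ((N : ℝ) * ·) (sum_congr rfl fun k _ => ?_)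
    simp only [hv]
    rw [← ofReal_mul, Complex.norm_real, Real.norm_eq_abs, sq_abs]
  rw [← mul_sum, sum_add_distrib, sum_add_distrib, ← mul_sum, ← mul_sum, ← mul_sum, hTsum, hGsum,
    hdiff] at hsum
  have hfin := mul_le_mul_of_nonneg_left herr (show 0 ≤ 4 * (J : ℝ) ^ 2 by positivity)
  simp only [hΔ] at hsum
  refine le_of_mul_le_mul_left (a := (J : ℝ) ^ 2 * N) ?_ (by positivity)
  rw [show (J : ℝ) ^ 2 * N * (16 * A ^ 2 * N / J + 4 * ε ^ 2 * N +
      2 * (J : ℝ) ^ 2 * ∑ k ∈ range N,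
        (tent c r ((((k + P) % N : ℕ) : ℝ) / N) * h ((k + P) % N) -
          tent c r ((k : ℝ) / N) * h k) ^ 2) =
      16 * A ^ 2 * N * (N * J) + 4 * (J : ℝ) ^ 2 * (ε ^ 2 * N * N) +
      2 * (J : ℝ) ^ 4 * (N * ∑ k ∈ range N,
        (tent c r ((((k + P) % N : ℕ) : ℝ) / N) * h ((k + P) % N) -
          tent c r ((k : ℝ) / N) * h k) ^ 2) by field_simp]
  linarith

end Vale.Agent.P110.Dense
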