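import Vale.Agent.P110.Delay.Spectrum

/-!
P110: the spectral estimate on one window, with a weight at each grid point.
-/

namespace Vale.Agent.P110.Dense

open Finset Complex Polynomial Vale.Agent.P110.Window Vale.Agent.P110.Delay

/-- The spectral estimate for the window with profile `tent c r`: the filter `p` is at most
`A * ω s` at the grid point `s` when its frequency lies in the window. -/
theorem weighted_estimate {c r : ℝ} (hr : 0 < r) {n : ℕ} (a : Fin n → ℂ) (lam : Fin n → ℝ) {ε : ℝ}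
    (hε : 0 < ε) (happ : ∀ x : ℝ, ‖(tent c r x : ℂ) - expSum a lam x‖ ≤ ε) {ξ A : ℝ} {ω : ℕ → ℝ} (hA : 0 ≤ A)
    (hω : ∀ s, 0 ≤ ω s) (hξ : ξ * (∑ m, ‖a m‖ + 1) ≤ ε) (hξ0 : 0 ≤ ξ)
    {h : ℕ → ℝ} {N : ℕ} (hN : 0 < N) (hh : ∀ k < N, |h k| = 1)
    {ζ : ℂ} (hζ : IsPrimitiveRoot ζ N) (p : ℝ[X])
    (hPz : ∀ s, ‖pol h N (ζ ^ s)‖ ≤ 2 * Real.sqrt N)
    (t : ℕ → ℝ) (hwave : ∀ s, ∀ m : Fin n,
      ‖pol h N (ζ ^ s * exp (I * (lam m / N : ℝ))) -
        pol h N (ζ ^ s) * exp (I * (lam m * t s : ℝ))‖ ≤ ξ * Real.sqrt N)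
    (hp : ∀ s, ‖aeval (ζ ^ s) p‖ ≤ A)
    (hp' : ∀ s, 0 < tent c r (t s) → ‖aeval (ζ ^ s) p‖ ≤ A * ω s) :
    (N : ℝ) * ∑ k ∈ range N, ‖∑ i ∈ range (p.natDegree + 1),
        (p.coeff i : ℂ) * ((tent c r (((k + i) % N : ℕ) / (N : ℝ)) : ℂ) * h ((k + i) % N))‖ ^ 2 ≤
      3 * A ^ 2 * (4 * N * (∑ s ∈ range N, ω s ^ 2 * tent c r (t s)) + 10 * ε ^ 2 * N * N) := by
  have hNr : (0 : ℝ) < N := Nat.cast_pos.2 hN
  set sN := Real.sqrt N with hsN
  have hs : sN * sN = N := Real.mul_self_sqrt hNr.le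
  have hs0 : 0 ≤ sN := Real.sqrt_nonneg _
  rw [parseval_filtered hζ hN (fun j => (tent c r ((j : ℝ) / N) : ℂ) * h j) p]
  set T : ℕ → ℂ := fun s => wpol (fun x => (tent c r x : ℂ)) h N (ζ ^ s)
  set W : ℕ → ℂ := fun s => wpol (expSum a lam) h N (ζ ^ s)
  set e : ℕ → ℝ := fun s => ‖T s - W s‖
  have herr : ∑ s ∈ range N, e s ^ 2 ≤ ε ^ 2 * N * N := by
    have eq : ∀ s, T s - W s = ∑ i ∈ range N,
        (((tent c r ((i : ℝ) / N) : ℂ) - expSum a lam ((i : ℝ) / N)) * h i) * (ζ ^ s) ^ i := fun s => by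
      simp only [T, W, wpol, ← sum_sub_distrib, sub_mul]
    simp only [e, eq]
    rw [parseval hζ hN]
    have h1 : ∑ i ∈ range N, ‖((tent c r ((i : ℝ) / N) : ℂ) - expSum a lam ((i : ℝ) / N)) *
        (h i : ℂ)‖ ^ 2 ≤ ∑ _i ∈ range N, ε ^ 2 := sum_le_sum fun i hi => by
      rw [norm_mul, Complex.norm_real, Real.norm_eq_abs, hh i (mem_range.1 hi), mul_one]
      exact pow_le_pow_left₀ (norm_nonneg _) (happ _) 2
    rw [sum_const, card_range, nsmul_eq_mul] at h1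
    nlinarith
  have hpt : ∀ s, ‖aeval (ζ ^ s)⁻¹ p‖ ^ 2 * ‖T s‖ ^ 2 ≤
      3 * A ^ 2 * (4 * N * (ω s ^ 2 * tent c r (t s)) + 9 * ε ^ 2 * N + e s ^ 2) := by
    intro s
    have hz : ‖ζ ^ s‖ = 1 := by rw [norm_pow, hζ.norm'_eq_one hN.ne', one_pow]
    rw [norm_aeval_inv hz]
    set z := ζ ^ s
    set τ := t s
    set w := tent c r τ with hw
    have hw0 : 0 ≤ w := tent_nonneg _ _ _
    have hw1 : w ≤ 1 := tent_le_one c hr τ
    have h1 : ‖W s - expSum a lam τ * pol h N z‖ ≤ ε * sN := by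
      simp only [W, wpol_expSum, expSum, sum_mul, ← sum_sub_distrib]
      refine (norm_sum_le _ _).trans ?_
      calc ∑ m, ‖a m * pol h N (z * exp (I * (lam m / N : ℝ))) -
              a m * exp (I * (lam m * τ : ℝ)) * pol h N z‖
          ≤ ∑ m, ‖a m‖ * (ξ * sN) := sum_le_sum fun m _ => by
            rw [show a m * pol h N (z * exp (I * (lam m / N : ℝ))) -
                a m * exp (I * (lam m * τ : ℝ)) * pol h N z =
              a m * (pol h N (z * exp (I * (lam m / N : ℝ))) -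
                pol h N z * exp (I * (lam m * τ : ℝ))) by ring, norm_mul]
            exact mul_le_mul_of_nonneg_left (hwave s m) (norm_nonneg _)
        _ = ξ * (∑ m, ‖a m‖) * sN := by rw [← sum_mul]; ring
        _ ≤ ε * sN := mul_le_mul_of_nonneg_right
            (le_trans (mul_le_mul_of_nonneg_left (le_add_of_nonneg_right zero_le_one) hξ0) hξ) hs0
    have h2 : ‖expSum a lam τ‖ ≤ w + ε := by
      have := norm_le_norm_add_norm_sub' (expSum a lam τ) (w : ℂ)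
      rw [Complex.norm_real, Real.norm_of_nonneg hw0, norm_sub_rev] at this
      linarith [happ τ]
    have h3 : ‖T s‖ ≤ w * (2 * sN) + 3 * ε * sN + e s := by
      have a1 := norm_le_norm_add_norm_sub' (T s) (W s)
      have a2 := norm_le_norm_add_norm_sub' (W s) (expSum a lam τ * pol h N z)
      rw [norm_mul] at a2
      have a3 := mul_le_mul h2 (hPz s) (norm_nonneg _) (by linarith)
      simp only [e]
      linarith
    have hAw : ‖aeval z p‖ * w ≤ A * ω s * w := by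
      rcases hw0.eq_or_lt with h0 | h0
      · rw [← h0]; simp
      · exact mul_le_mul_of_nonneg_right (hp' s h0) hw0
    have he0 : 0 ≤ e s := norm_nonneg _
    have hes : 0 ≤ 3 * ε * sN + e s := by positivity
    have hV : ‖aeval z p‖ * ‖T s‖ ≤ A * (ω s * w * (2 * sN) + 3 * ε * sN + e s) := by
      refine (mul_le_mul_of_nonneg_left h3 (norm_nonneg _)).trans ?_
      have b1 := mul_le_mul_of_nonneg_right hAw (show 0 ≤ 2 * sN by linarith)
      have b2 := mul_le_mul_of_nonneg_right (hp s) hes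
      linarith
    rw [← mul_pow]
    refine (pow_le_pow_left₀ (by positivity) hV 2).trans ?_
    rw [mul_pow]
    calc A ^ 2 * (ω s * w * (2 * sN) + 3 * ε * sN + e s) ^ 2
        ≤ A ^ 2 * (3 * ((ω s * w * (2 * sN)) ^ 2 + (3 * ε * sN) ^ 2 + e s ^ 2)) := by
          refine mul_le_mul_of_nonneg_left ?_ (sq_nonneg A)
          nlinarith [sq_nonneg (ω s * w * (2 * sN) - 3 * ε * sN), sq_nonneg (ω s * w * (2 * sN) - e s),
            sq_nonneg (3 * ε * sN - e s)]
      _ ≤ 3 * A ^ 2 * (4 * N * (ω s ^ 2 * w) + 9 * ε ^ 2 * N + e s ^ 2) := by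
          rw [show (ω s * w * (2 * sN)) ^ 2 = 4 * N * (ω s ^ 2 * w ^ 2) by rw [← hs]; ring,
            show (3 * ε * sN) ^ 2 = 9 * ε ^ 2 * N by rw [← hs]; ring]
          have : w ^ 2 ≤ w := by nlinarith
          nlinarith [mul_le_mul_of_nonneg_left this (show 0 ≤ 4 * A ^ 2 * N * ω s ^ 2 by positivity)]
  refine (sum_le_sum fun s _ => hpt s).trans ?_
  rw [← mul_sum, sum_add_distrib, sum_add_distrib, ← mul_sum, sum_const, card_range, nsmul_eq_mul]
  refine mul_le_mul_of_nonneg_left ?_ (by positivity)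
  linarith

end Vale.Agent.P110.Dense
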