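import Mathlib

/-!
P110: polynomial step profiles with derivative bounded independently of the accuracy, and an
`l1` bound for the coefficients of a polynomial on the circle.
-/

namespace Vale.Agent.P110.Dense

open Finset Polynomial

theorem eval_diff_bounds {g : ℝ[X]} {u v lo hi : ℝ} (huv : u ≤ v)
    (hlo : ∀ x ∈ Set.Icc u v, lo ≤ g.derivative.eval x)
    (hhi : ∀ x ∈ Set.Icc u v, g.derivative.eval x ≤ hi) :
    lo * (v - u) ≤ g.eval v - g.eval u ∧ g.eval v - g.eval u ≤ hi * (v - u) := by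
  have hc : ContinuousOn (fun x => g.eval x) (Set.Icc u v) := g.continuous.continuousOn
  have hd : DifferentiableOn ℝ (fun x => g.eval x) (interior (Set.Icc u v)) :=
    g.differentiable.differentiableOn
  constructor
  · exact (convex_Icc u v).mul_sub_le_image_sub_of_le_deriv hc hd
      (fun x hx => by rw [Polynomial.deriv]; exact hlo x (interior_subset hx))
      u (Set.left_mem_Icc.2 huv) v (Set.right_mem_Icc.2 huv) huv
  · exact (convex_Icc u v).image_sub_le_mul_sub_of_deriv_le hc hd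
      (fun x hx => by rw [Polynomial.deriv]; exact hhi x (interior_subset hx))
      u (Set.left_mem_Icc.2 huv) v (Set.right_mem_Icc.2 huv) huv

/-- A polynomial close to `1` left of `1 - a` and close to `0` right of `1 - a / 2`. -/
theorem exists_step {a : ℝ} (ha : 0 < a) (ha2 : a ≤ 1 / 2) {σ : ℝ} (hσ : 0 < σ) (hσ1 : σ ≤ 1) :
    ∃ g : ℝ[X], ∀ x ∈ Set.Icc (-1 : ℝ) 1,
      |g.eval x| ≤ 64 / a ∧ |g.derivative.eval x| ≤ 64 / a ∧
      (1 - a / 2 ≤ x → |g.eval x| ≤ σ ∧ |g.derivative.eval x| ≤ σ) ∧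
      (x ≤ 1 - a → |1 - g.eval x| ≤ σ) := by
  obtain ⟨γ, hγ⟩ : ∃ γ : ℝ → ℝ, γ = fun x => max 0 (1 - |x - (1 - 3 * a / 4)| / (a / 4)) :=
    ⟨_, rfl⟩
  have hcont : Continuous γ := by rw [hγ]; fun_prop
  obtain ⟨τ, hτe⟩ : ∃ τ : ℝ, τ = σ * a / 64 := ⟨_, rfl⟩
  have hτ : 0 < τ := by rw [hτe]; positivity
  have hτa : τ ≤ a / 64 := by rw [hτe]; nlinarith
  obtain ⟨π', hπ⟩ := exists_polynomial_near_of_continuousOn (-1) 1 γ hcont.continuousOn τ hτ
  obtain ⟨g0, hg0⟩ : ∃ g0 : ℝ[X], g0.derivative = π' := by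
    refine ⟨∑ j ∈ range (π'.natDegree + 1), C (π'.coeff j / (j + 1)) * X ^ (j + 1), ?_⟩
    conv_rhs => rw [π'.as_sum_range_C_mul_X_pow]
    rw [derivative_sum]
    refine sum_congr rfl fun j _ => ?_
    rw [derivative_C_mul_X_pow, Nat.add_sub_cancel]
    congr 2
    push_cast
    rw [div_mul_cancel₀]
    positivity
  have hγ0 : ∀ x, 0 ≤ γ x ∧ γ x ≤ 1 := fun x => by
    rw [hγ]
    refine ⟨le_max_left _ _, max_le zero_le_one ?_⟩
    have : 0 ≤ |x - (1 - 3 * a / 4)| / (a / 4) := by positivity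
    linarith
  have hout : ∀ x, x ≤ 1 - a ∨ 1 - a / 2 ≤ x → γ x = 0 := fun x hx => by
    simp only [hγ]
    refine max_eq_left ?_
    rw [sub_nonpos, one_le_div (by positivity)]
    rcases hx with hx | hx
    · exact le_trans (by linarith) (neg_le_abs _)
    · exact le_trans (by linarith) (le_abs_self _)
  have hin : ∀ x ∈ Set.Icc (1 - 7 * a / 8) (1 - 5 * a / 8), 1 / 2 ≤ γ x := fun x hx => by
    simp only [hγ]
    refine le_max_of_le_right ?_
    have : |x - (1 - 3 * a / 4)| / (a / 4) ≤ 1 / 2 := by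
      rw [div_le_iff₀ (by positivity), abs_le]
      constructor <;> linarith [hx.1, hx.2]
    linarith
  have hd : ∀ x ∈ Set.Icc (-1 : ℝ) 1, γ x - τ ≤ g0.derivative.eval x ∧
      g0.derivative.eval x ≤ γ x + τ := fun x hx => by
    have := abs_lt.1 (hπ x hx)
    rw [hg0]
    constructor <;> linarith
  obtain ⟨s0, hs0e⟩ : ∃ s0 : ℝ, s0 = g0.eval 1 - g0.eval (1 - a) := ⟨_, rfl⟩
  have hs0 : a / 16 ≤ s0 := by
    have h1 := (eval_diff_bounds (g := g0) (u := 1 - a) (v := 1 - 7 * a / 8) (lo := -τ) (hi := 2)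
      (by linarith)
      (fun x hx => by linarith [(hd x ⟨by linarith [hx.1], by linarith [hx.2]⟩).1, (hγ0 x).1])
      (fun x hx => by linarith [(hd x ⟨by linarith [hx.1], by linarith [hx.2]⟩).2, (hγ0 x).2])).1
    have h2 := (eval_diff_bounds (g := g0) (u := 1 - 7 * a / 8) (v := 1 - 5 * a / 8)
      (lo := 1 / 2 - τ) (hi := 2) (by linarith)
      (fun x hx => by linarith [(hd x ⟨by linarith [hx.1], by linarith [hx.2]⟩).1, hin x hx])
      (fun x hx => by linarith [(hd x ⟨by linarith [hx.1], by linarith [hx.2]⟩).2, (hγ0 x).2])).1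
    have h3 := (eval_diff_bounds (g := g0) (u := 1 - 5 * a / 8) (v := 1) (lo := -τ) (hi := 2)
      (by linarith)
      (fun x hx => by linarith [(hd x ⟨by linarith [hx.1], hx.2⟩).1, (hγ0 x).1])
      (fun x hx => by linarith [(hd x ⟨by linarith [hx.1], hx.2⟩).2, (hγ0 x).2])).1
    nlinarith
  have hs0' : 0 < s0 := by linarith
  refine ⟨C s0⁻¹ * (C (g0.eval 1) - g0), fun x hx => ?_⟩
  have he : (C s0⁻¹ * (C (g0.eval 1) - g0)).eval x = (g0.eval 1 - g0.eval x) / s0 := by
    simp [div_eq_inv_mul]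
  have hde : (C s0⁻¹ * (C (g0.eval 1) - g0)).derivative.eval x =
      -(g0.derivative.eval x) / s0 := by
    simp [div_eq_inv_mul]
  rw [he, hde]
  have key : ∀ {N B : ℝ}, 0 ≤ B → |N| ≤ B * (a / 16) → |N / s0| ≤ B := fun {N B} hB h => by
    rw [abs_div, abs_of_pos hs0', div_le_iff₀ hs0']
    exact h.trans (mul_le_mul_of_nonneg_left hs0 hB)
  have e64 : 64 / a * (a / 16) = 4 := by field_simp; norm_num
  have hall := eval_diff_bounds (g := g0) (u := x) (v := 1) (lo := -τ) (hi := 1 + τ) hx.2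
    (fun y hy => by linarith [(hd y ⟨by linarith [hy.1, hx.1], hy.2⟩).1, (hγ0 y).1])
    (fun y hy => by linarith [(hd y ⟨by linarith [hy.1, hx.1], hy.2⟩).2, (hγ0 y).2])
  have hl : 1 - x ≤ 2 := by linarith [hx.1]
  have hl0 : 0 ≤ 1 - x := by linarith [hx.2]
  have hσa : σ * (a / 16) = 4 * τ := by rw [hτe]; ring
  refine ⟨key (by positivity) ?_, key (by positivity) ?_,
    fun hxb => ⟨key hσ.le ?_, key hσ.le ?_⟩, fun hxa => ?_⟩
  · rw [e64, abs_le]
    constructor <;> nlinarith [hall.1, hall.2]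
  · rw [e64, abs_neg, abs_le]
    constructor <;> linarith [(hd x hx).1, (hd x hx).2, (hγ0 x).1, (hγ0 x).2]
  · have := eval_diff_bounds (g := g0) (u := x) (v := 1) (lo := -τ) (hi := τ) hx.2
      (fun y hy => by
        linarith [(hd y ⟨by linarith [hy.1, hx.1], hy.2⟩).1, hout y (Or.inr (hxb.trans hy.1))])
      (fun y hy => by
        linarith [(hd y ⟨by linarith [hy.1, hx.1], hy.2⟩).2, hout y (Or.inr (hxb.trans hy.1))])
    rw [hσa, abs_le]
    constructor <;> nlinarith [this.1, this.2]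
  · rw [hσa, abs_neg, abs_le]
    constructor <;> linarith [(hd x hx).1, (hd x hx).2, hout x (Or.inr hxb)]
  · have := eval_diff_bounds (g := g0) (u := x) (v := 1 - a) (lo := -τ) (hi := τ) hxa
      (fun y hy => by
        linarith [(hd y ⟨by linarith [hy.1, hx.1], by linarith [hy.2]⟩).1, hout y (Or.inl hy.2)])
      (fun y hy => by
        linarith [(hd y ⟨by linarith [hy.1, hx.1], by linarith [hy.2]⟩).2, hout y (Or.inl hy.2)])
    rw [show 1 - (g0.eval 1 - g0.eval x) / s0 = (g0.eval x - g0.eval (1 - a)) / s0 by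
      rw [eq_div_iff hs0'.ne', sub_mul, div_mul_cancel₀ _ hs0'.ne', hs0e]; ring]
    refine key hσ.le ?_
    rw [hσa, abs_le]
    constructor <;> nlinarith [this.1, this.2]

theorem sum_inv_sq_le : ∀ n : ℕ, 1 ≤ n →
    ∑ i ∈ range n, 1 / (1 + (i : ℝ) ^ 2) ≤ 3 - 2 / (n : ℝ) := by
  intro n hn
  induction n, hn using Nat.le_induction with
  | base => norm_num
  | succ n hn ih =>
    rw [sum_range_succ]
    have h1 : (1 : ℝ) ≤ n := Nat.one_le_cast.2 hn
    have h2 : 1 / (1 + (n : ℝ) ^ 2) ≤ 2 / n - 2 / ((n + 1 : ℕ) : ℝ) := by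
      push_cast
      rw [div_sub_div _ _ (by positivity) (by positivity),
        div_le_div_iff₀ (by positivity) (by positivity)]
      nlinarith
    linarith

theorem sum_inv_sq_centered (M : ℕ) :
    ∑ j ∈ range (2 * M + 1), 1 / (1 + ((j : ℝ) - M) ^ 2) ≤ 6 := by
  rw [show 2 * M + 1 = M + (M + 1) by omega, sum_range_add, ← sum_range_reflect]
  have b : ∀ n : ℕ, ∑ i ∈ range n, 1 / (1 + (i : ℝ) ^ 2) ≤ 3 := fun n => by
    rcases Nat.eq_zero_or_pos n with rfl | hn
    · simp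
    · have := sum_inv_sq_le n hn
      have : (0 : ℝ) ≤ 2 / n := by positivity
      linarith
  refine (add_le_add ((sum_le_sum fun j hj => ?_).trans (b M))
    ((le_of_eq (sum_congr rfl fun j _ => ?_)).trans (b (M + 1)))).trans (by norm_num)
  · have hj' := mem_range.1 hj
    rw [Nat.sub_sub, Nat.cast_sub (by omega)]
    refine one_div_le_one_div_of_le (by positivity) ?_
    push_cast
    nlinarith [(j.cast_nonneg : (0 : ℝ) ≤ j)]
  · push_cast
    ring

end Vale.Agent.P110.Dense
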