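import Vale.Agent.P110.Window.Twin
import Vale.Agent.P110.Dense.Profile

/-!
P110: a real filter, small off a pair of conjugate arcs, whose coefficients are almost carried by a
block of bounded length ending in a coefficient close to `1`.
-/

namespace Vale.Agent.P110.Dense

open Finset Polynomial
open scoped ComplexConjugate
open Complex (I normSq)

theorem coeff_parseval (Q : ℂ[X]) {d : ℕ} (hQ : Q.natDegree ≤ d) {β : ℝ}
    (hβ : ∀ z : ℂ, ‖z‖ = 1 → ‖Q.eval z‖ ≤ β) : ∑ j ∈ range (d + 1), ‖Q.coeff j‖ ^ 2 ≤ β ^ 2 := by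
  obtain ⟨ζ, hζ⟩ : ∃ ζ : ℂ, IsPrimitiveRoot ζ (d + 1) :=
    ⟨_, Complex.isPrimitiveRoot_exp (d + 1) (by omega)⟩
  have h := Window.parseval hζ (Nat.succ_pos _) Q.coeff
  simp only [← eval_eq_sum_range' (Nat.lt_succ_of_le hQ)] at h
  have hs : ∑ s ∈ range (d + 1), ‖Q.eval (ζ ^ s)‖ ^ 2 ≤ ((d + 1 : ℕ) : ℝ) * β ^ 2 := by
    refine (sum_le_card_nsmul _ _ (β ^ 2) fun s _ => ?_).trans_eq
      (by rw [card_range, nsmul_eq_mul])
    exact pow_le_pow_left₀ (norm_nonneg _)
      (hβ _ (by rw [norm_pow, hζ.norm'_eq_one (by omega), one_pow])) 2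
  rw [h] at hs
  exact le_of_mul_le_mul_left hs (Nat.cast_pos.2 (Nat.succ_pos _))

theorem coeff_X_mul_derivative (R : ℂ[X]) (j : ℕ) :
    (X * R.derivative).coeff j = (j : ℂ) * R.coeff j := by
  rcases j with _ | j
  · simp
  · rw [coeff_X_mul, coeff_derivative]
    push_cast
    ring

theorem coeff_l1 (R : ℂ[X]) {M : ℕ} (hR : R.natDegree ≤ 2 * M)
    (h0 : ∀ z : ℂ, ‖z‖ = 1 → ‖R.eval z‖ ≤ 1 / 64)
    (h1 : ∀ z : ℂ, ‖z‖ = 1 → ‖z * R.derivative.eval z - (M : ℂ) * R.eval z‖ ≤ 1 / 64) :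
    ∑ j ∈ range (2 * M + 1), ‖R.coeff j‖ ≤ 1 / 16 := by
  obtain ⟨S, hS⟩ : ∃ S : ℂ[X], S = X * R.derivative - C (M : ℂ) * R := ⟨_, rfl⟩
  have hco : ∀ j, S.coeff j = (((j : ℝ) - M : ℝ) : ℂ) * R.coeff j := fun j => by
    rw [hS, coeff_sub, coeff_X_mul_derivative, coeff_C_mul]
    push_cast
    ring
  have hSd : S.natDegree ≤ 2 * M := natDegree_le_iff_coeff_eq_zero.2 fun j hj => by
    rw [hco, coeff_eq_zero_of_natDegree_lt (lt_of_le_of_lt hR hj), mul_zero]
  have a0 := coeff_parseval R hR h0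
  have a1 := coeff_parseval S hSd fun z hz => by
    simpa [hS] using h1 z hz
  simp only [hco, norm_mul, Complex.norm_real, Real.norm_eq_abs, mul_pow, sq_abs] at a1
  have hpt : ∀ j ∈ range (2 * M + 1), ‖R.coeff j‖ ≤
      40 * (‖R.coeff j‖ ^ 2 + ((j : ℝ) - M) ^ 2 * ‖R.coeff j‖ ^ 2) +
        1 / 160 * (1 / (1 + ((j : ℝ) - M) ^ 2)) := by
    intro j _
    set w : ℝ := 1 + ((j : ℝ) - M) ^ 2 with hw
    set x := ‖R.coeff j‖
    have hw0 : 0 < w := by positivity
    rw [show x ^ 2 + ((j : ℝ) - M) ^ 2 * x ^ 2 = w * x ^ 2 by rw [hw]; ring]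
    have : 40 * (w * x ^ 2) + 1 / 160 * (1 / w) - x = 40 / w * (w * x - 1 / 80) ^ 2 := by
      field_simp
      ring
    have : 0 ≤ 40 / w * (w * x - 1 / 80) ^ 2 := by positivity
    linarith
  refine (sum_le_sum hpt).trans ?_
  rw [sum_add_distrib, ← mul_sum, ← mul_sum, sum_add_distrib]
  have := sum_inv_sq_centered M
  linarith

/-- The filter factor: modulus at most `1 + n`, at most `ρ < 1` left of `1 - b`. -/
theorem exists_contracting {b : ℝ} (hb : 0 < b) (hb1 : b ≤ 1 / 4) :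
    ∃ (n : ℕ) (ρ : ℝ), 0 < ρ ∧ ρ < 1 ∧ ∀ w : ℂ, ‖w‖ = 1 → ∃ U : ℂ[X],
      U.Monic ∧ U.natDegree = n ∧ ∀ z : ℂ, ‖z‖ = 1 →
        ‖U.eval z‖ ≤ 1 + n ∧ ‖z * U.derivative.eval z - (n : ℂ) * U.eval z‖ ≤ 1 ∧
        ((z * conj w).re ≤ 1 - b → ‖U.eval z‖ ≤ ρ) := by
  obtain ⟨n, hn⟩ := exists_pow_lt_of_lt_one (show 0 < b ^ 2 / 64 by positivity)
    (show 1 - b / 2 < 1 by linarith)
  obtain ⟨r, hr⟩ : ∃ r : ℝ, r = 1 - b / 2 := ⟨_, rfl⟩
  rw [← hr] at hn
  have hr0 : 0 < r := by linarith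
  have hr1 : r < 1 := by linarith
  have hn1 : 1 ≤ n := by
    by_contra h
    obtain rfl : n = 0 := by omega
    rw [pow_zero] at hn
    nlinarith
  have hnr : (1 : ℝ) ≤ n := Nat.one_le_cast.2 hn1
  have hn2 : (1 : ℝ) ≤ (n : ℝ) ^ 2 := one_le_pow₀ hnr
  obtain ⟨μ, hμ⟩ : ∃ μ : ℝ, μ = b / 32 := ⟨_, rfl⟩
  have hμ0 : 0 < μ := by linarith
  have hμ1 : μ ≤ 1 := by linarith
  obtain ⟨ε, hε⟩ : ∃ ε : ℝ, ε = μ / (n : ℝ) ^ 2 := ⟨_, rfl⟩
  have hε0 : 0 ≤ ε := by rw [hε]; positivity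
  have hεn : ε * (n : ℝ) ^ 2 = μ := by rw [hε]; field_simp
  have hε1 : ε ≤ 1 := by nlinarith
  have hεμ : 0 < ε * μ := by rw [hε]; positivity
  refine ⟨n, Real.sqrt (1 - ε * μ), Real.sqrt_pos.2 (by nlinarith), ?_, fun w hw => ?_⟩
  · rw [Real.sqrt_lt' one_pos]
    linarith
  set p : ℂ[X] := C (ε : ℂ) *
    ∑ i ∈ range n, C (((r : ℂ) * w) ^ (i + 1)) * X ^ (n - 1 - i) with hp
  have hdeg : p.degree < n := (degree_lt_iff_coeff_zero _ _).2 fun m hm => by
    rw [hp, coeff_C_mul, finsetSum_coeff]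
    refine mul_eq_zero_of_right _ (sum_eq_zero fun i hi => ?_)
    have := mem_range.1 hi
    rw [coeff_C_mul, coeff_X_pow, if_neg (by omega), mul_zero]
  refine ⟨X ^ n + p, monic_X_pow_add hdeg, ?_, fun z hz => ?_⟩
  · refine natDegree_eq_of_degree_eq_some ?_
    rw [degree_add_eq_left_of_degree_lt (by simpa using hdeg), degree_X_pow]
  obtain ⟨u, hu⟩ : ∃ u : ℂ, u = w * conj z := ⟨_, rfl⟩
  have hu1 : ‖u‖ = 1 := by rw [hu, norm_mul, Complex.norm_conj, hw, hz, mul_one]
  have hzz : z * conj z = 1 := by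
    rw [Complex.mul_conj', hz]; simp
  obtain ⟨S, hS⟩ : ∃ S : ℂ, S = ∑ i ∈ range n, ((r : ℂ) * u) ^ (i + 1) := ⟨_, rfl⟩
  have hv : (X ^ n + p).eval z = z ^ n * (1 + (ε : ℂ) * S) := by
    simp only [hp, eval_add, eval_mul, eval_C, eval_pow, eval_X, eval_finsetSum, hS, mul_add,
      mul_one, mul_sum]
    congr 1
    refine sum_congr rfl fun i hi => ?_
    have hi' := mem_range.1 hi
    have e : z ^ n = z ^ (n - 1 - i) * z ^ (i + 1) := by rw [← pow_add]; congr 1; omega
    calc (ε : ℂ) * (((r : ℂ) * w) ^ (i + 1) * z ^ (n - 1 - i))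
        = (ε : ℂ) * (((r : ℂ) * w) ^ (i + 1) * (z ^ (n - 1 - i) * (z * conj z) ^ (i + 1))) := by
          rw [hzz, one_pow, mul_one]
      _ = _ := by rw [hu, e]; ring
  have hrpow : ∀ i, ‖((r : ℂ) * u) ^ i‖ ≤ 1 := fun i => by
    rw [norm_pow, norm_mul, hu1, mul_one, Complex.norm_real, Real.norm_of_nonneg hr0.le]
    exact pow_le_one₀ hr0.le hr1.le
  have hSn : ‖S‖ ≤ n := by
    rw [hS]
    refine (norm_sum_le _ _).trans ((sum_le_card_nsmul _ _ 1 fun i _ => hrpow _).trans_eq ?_)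
    rw [card_range, nsmul_eq_mul, mul_one]
  refine ⟨?_, ?_, fun hx => ?_⟩
  · rw [hv, norm_mul, norm_pow, hz, one_pow, one_mul]
    refine (norm_add_le _ _).trans ?_
    rw [norm_one, norm_mul, Complex.norm_real, Real.norm_of_nonneg hε0]
    nlinarith [norm_nonneg S]
  · have hzd : ∀ m : ℕ, z * ((m : ℂ) * z ^ (m - 1)) = (m : ℂ) * z ^ m := fun m => by
      rcases m with _ | m
      · simp
      · rw [Nat.add_sub_cancel, pow_succ]; ring
    have e : z * (X ^ n + p).derivative.eval z - (n : ℂ) * (X ^ n + p).eval z =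
        (ε : ℂ) * ∑ i ∈ range n, ((r : ℂ) * w) ^ (i + 1) *
          ((((n - 1 - i : ℕ) : ℂ) - n) * z ^ (n - 1 - i)) := by
      simp only [hp, derivative_add, derivative_X_pow, derivative_C_mul, derivative_sum,
        eval_add, eval_mul, eval_C, eval_pow, eval_X, eval_finsetSum, mul_add, mul_sum]
      rw [add_sub_add_comm, hzd, sub_self, zero_add, ← sum_sub_distrib]
      refine sum_congr rfl fun i _ => ?_
      linear_combination (ε : ℂ) * ((r : ℂ) * w) ^ (i + 1) * hzd (n - 1 - i)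
    rw [e, norm_mul, Complex.norm_real, Real.norm_of_nonneg hε0]
    refine le_trans (mul_le_mul_of_nonneg_left ?_ hε0) (hεn.le.trans hμ1)
    refine (norm_sum_le _ _).trans ((sum_le_card_nsmul _ _ (n : ℝ) fun i hi => ?_).trans_eq ?_)
    · rw [norm_mul, norm_mul, norm_pow, norm_mul, hw, mul_one, Complex.norm_real,
        Real.norm_of_nonneg hr0.le, norm_pow, hz, one_pow, mul_one, ← Complex.ofReal_natCast,
        ← Complex.ofReal_natCast, ← Complex.ofReal_sub, Complex.norm_real, Real.norm_eq_abs]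
      refine le_trans (mul_le_of_le_one_left (abs_nonneg _) (pow_le_one₀ hr0.le hr1.le)) ?_
      have : ((n - 1 - i : ℕ) : ℝ) ≤ n := Nat.cast_le.2 (by omega)
      rw [abs_le]
      constructor <;> linarith [Nat.cast_nonneg (α := ℝ) (n - 1 - i)]
    · rw [card_range, nsmul_eq_mul, sq]
  · rw [hv, norm_mul, norm_pow, hz, one_pow, one_mul]
    refine Real.le_sqrt_of_sq_le ?_
    have hux : u.re = (z * conj w).re := by
      rw [hu, ← Complex.conj_re, map_mul, Complex.conj_conj, mul_comm]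
    obtain ⟨v, hvdef⟩ : ∃ v : ℂ, v = (r : ℂ) * u := ⟨_, rfl⟩
    have hv1 : ‖v‖ = r := by
      rw [hvdef, norm_mul, hu1, mul_one, Complex.norm_real, Real.norm_of_nonneg hr0.le]
    have hd1 : 1 - r ≤ ‖1 - v‖ := by
      have := norm_sub_norm_le (1 : ℂ) v
      rwa [norm_one, hv1] at this
    have hdne : 1 - v ≠ 0 := norm_pos_iff.1 (lt_of_lt_of_le (by linarith) hd1)
    have hgeo : S = v / (1 - v) - v ^ (n + 1) / (1 - v) := by
      rw [div_sub_div_same, eq_div_iff hdne, hS, ← hvdef]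
      have := geom_sum_mul_neg v n
      simp only [pow_succ', ← mul_sum]
      linear_combination v * this
    have hmain : (v / (1 - v)).re ≤ -(b / 16) := by
      have hns : normSq u = 1 := by rw [Complex.normSq_eq_norm_sq, hu1, one_pow]
      have hvre : v.re = r * u.re := by simp [hvdef]
      have hnum : v / (1 - v) = (v * conj (1 - v)) / ((normSq (1 - v) : ℝ) : ℂ) := by
        rw [← Complex.mul_conj, mul_div_mul_right]
        exact (_root_.map_ne_zero conj).2 hdne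
      have hden : normSq (1 - v) ≤ 4 := by
        rw [Complex.normSq_eq_norm_sq]
        have := norm_sub_le (1 : ℂ) v
        rw [norm_one, hv1] at this
        nlinarith [norm_nonneg (1 - v)]
      have hden0 : 0 < normSq (1 - v) := Complex.normSq_pos.2 hdne
      rw [hnum, Complex.div_ofReal_re, div_le_iff₀ hden0, map_sub, map_one, mul_sub, mul_one,
        Complex.sub_re, Complex.mul_conj, Complex.ofReal_re, Complex.normSq_eq_norm_sq, hv1, hvre,
        hux]
      nlinarith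
    have htail : ‖v ^ (n + 1) / (1 - v)‖ ≤ b / 32 := by
      rw [norm_div, norm_pow, hv1, div_le_iff₀ (lt_of_lt_of_le (by linarith) hd1)]
      refine le_trans ?_ (mul_le_mul_of_nonneg_left hd1 (by positivity))
      have : r ^ (n + 1) ≤ r ^ n := pow_le_pow_of_le_one hr0.le hr1.le (Nat.le_succ n)
      nlinarith
    have hSre : S.re ≤ -μ := by
      rw [hgeo, Complex.sub_re]
      have := abs_le.1 ((Complex.abs_re_le_norm _).trans htail)
      linarith
    rw [← Complex.normSq_eq_norm_sq, Complex.normSq_add, map_one, map_mul, map_mul,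
      Complex.normSq_ofReal, one_mul, Complex.conj_ofReal, Complex.re_ofReal_mul,
      Complex.conj_re]
    have hSsq : normSq S ≤ (n : ℝ) ^ 2 := by
      rw [Complex.normSq_eq_norm_sq]
      exact pow_le_pow_left₀ (norm_nonneg _) hSn 2
    have h1 := mul_le_mul_of_nonneg_left hSre hε0
    have h2 := mul_le_mul_of_nonneg_left hSsq (mul_nonneg hε0 hε0)
    nlinarith

/-- The step profile moved to the circle as a polynomial. -/
theorem exists_circle_profile (g : ℝ[X]) {m : ℕ} (hm : g.natDegree ≤ m) {w : ℂ} (hw : ‖w‖ = 1) :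
    ∃ G : ℂ[X], G.natDegree ≤ 2 * m ∧ ∀ z : ℂ, ‖z‖ = 1 →
      G.eval z = z ^ m * (g.eval (z * conj w).re : ℝ) ∧
      ‖z * G.derivative.eval z - (m : ℂ) * G.eval z‖ ≤ |g.derivative.eval (z * conj w).re| := by
  set A : ℂ[X] := C (conj w / 2) * X ^ 2 + C (w / 2) with hA
  have hAd : A.natDegree ≤ 2 := by rw [hA]; compute_degree
  refine ⟨∑ j ∈ range (m + 1), C (g.coeff j : ℂ) * (A ^ j * X ^ (m - j)), ?_, fun z hz => ?_⟩
  · refine natDegree_sum_le_of_forall_le _ _ fun j hj => ?_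
    refine (natDegree_C_mul_le _ _).trans (natDegree_mul_le.trans ?_)
    rw [natDegree_X_pow]
    have hjm := mem_range.1 hj
    have := (natDegree_pow_le (p := A) (n := j)).trans (Nat.mul_le_mul_left j hAd)
    omega
  obtain ⟨x, hx⟩ : ∃ x : ℝ, x = (z * conj w).re := ⟨_, rfl⟩
  rw [← hx]
  have hzz : z * conj z = 1 := by
    rw [Complex.mul_conj', hz]; simp
  have hAe : A.eval z = z * x := by
    rw [hx, Complex.re_eq_add_conj, hA, map_mul, Complex.conj_conj]
    simp
    linear_combination -(w / 2) * hzz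
  obtain ⟨y, hy⟩ : ∃ y : ℝ, y = (z * conj w).im := ⟨_, rfl⟩
  have hAv : z * A.derivative.eval z - A.eval z = z * (I * y) := by
    have hAD : A.derivative.eval z = conj w * z := by
      simp [hA]
      ring
    rw [hAe, hAD, hy, hx]
    linear_combination z * (Complex.re_add_im (z * conj w)).symm
  have hge : g.eval x = ∑ j ∈ range (m + 1), g.coeff j * x ^ j :=
    eval_eq_sum_range' (Nat.lt_succ_of_le hm) x
  have hgd : g.derivative.eval x = ∑ j ∈ range (m + 1), g.coeff j * ((j : ℝ) * x ^ (j - 1)) := by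
    conv_lhs => rw [g.as_sum_range_C_mul_X_pow' (Nat.lt_succ_of_le hm)]
    simp [eval_finsetSum, derivative_X_pow]
  have hterm : ∀ j ≤ m, z * (A ^ j * X ^ (m - j)).derivative.eval z -
      (m : ℂ) * (A ^ j * X ^ (m - j)).eval z = z ^ m * (I * y) * ((j : ℂ) * (x : ℂ) ^ (j - 1)) := by
    intro j hj
    obtain ⟨i, rfl⟩ : ∃ i, m = j + i := ⟨m - j, by omega⟩
    rw [Nat.add_sub_cancel_left]
    have hzd : z * ((i : ℂ) * z ^ (i - 1)) = (i : ℂ) * z ^ i := by
      rcases i with _ | i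
      · simp
      · rw [Nat.add_sub_cancel, pow_succ]; ring
    simp only [derivative_mul, derivative_pow, derivative_X, eval_add, eval_mul, eval_pow, eval_C,
      eval_X, mul_one]
    push_cast
    rcases j with _ | j
    · simp only [pow_zero, Nat.cast_zero]
      linear_combination hzd
    · rw [Nat.add_sub_cancel]
      push_cast
      linear_combination ((j : ℂ) + 1) * A.eval z ^ j * z ^ i * hAv + A.eval z ^ (j + 1) * hzd +
        ((j : ℂ) + 1) * z ^ (i + 1) * (I * y) * congrArg (· ^ j) hAe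
  refine ⟨?_, ?_⟩
  · rw [eval_finsetSum, hge, Complex.ofReal_sum, mul_sum]
    refine sum_congr rfl fun j hj => ?_
    have hjm := mem_range.1 hj
    simp only [eval_mul, eval_C, eval_pow, eval_X, hAe]
    push_cast
    rw [show z ^ m = z ^ j * z ^ (m - j) by rw [← pow_add]; congr 1; omega]
    ring
  · rw [derivative_sum, eval_finsetSum, eval_finsetSum, mul_sum, mul_sum, ← sum_sub_distrib]
    have e : ∀ j ∈ range (m + 1),
        z * (C (g.coeff j : ℂ) * (A ^ j * X ^ (m - j))).derivative.eval z -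
          (m : ℂ) * (C (g.coeff j : ℂ) * (A ^ j * X ^ (m - j))).eval z =
        z ^ m * (I * y) * ((g.coeff j * ((j : ℝ) * x ^ (j - 1)) : ℝ) : ℂ) := fun j hj => by
      rw [derivative_C_mul, eval_mul, eval_mul, eval_C]
      push_cast
      linear_combination (g.coeff j : ℂ) * hterm j (Nat.lt_succ_iff.1 (mem_range.1 hj))
    rw [sum_congr rfl e, ← mul_sum, ← Complex.ofReal_sum, ← hgd]
    rw [norm_mul, norm_mul, norm_pow, hz, one_pow, norm_mul, Complex.norm_I, one_mul, one_mul,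
      Complex.norm_real, Complex.norm_real, Real.norm_eq_abs, Real.norm_eq_abs, hy]
    refine mul_le_of_le_one_left (abs_nonneg _) ((Complex.abs_im_le_norm _).trans ?_)
    rw [norm_mul, Complex.norm_conj, hz, hw, one_mul]

/-- The real filter. The memory `L` does not depend on the accuracy `σ`. -/
theorem exists_filter {a : ℝ} (ha : 0 < a) (ha2 : a ≤ 1 / 2) :
    ∃ L : ℕ, ∀ σ : ℝ, 0 < σ → ∃ (m : ℕ) (D : ℝ), 1 ≤ D ∧ ∀ w : ℂ, ‖w‖ = 1 → ∃ p : ℝ[X],
      p.natDegree ≤ 2 * (m + L) ∧ 15 / 16 ≤ |p.coeff (m + L)| ∧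
      ∑ j ∈ (range (2 * (m + L) + 1)).filter (fun j => j < m ∨ m + L < j), |p.coeff j| ≤ 1 / 16 ∧
      ∑ j ∈ range (2 * (m + L) + 1), |p.coeff j| ≤ D ∧
      ∀ z : ℂ, ‖z‖ = 1 → (z * conj w).re ≤ 1 - a → (conj z * conj w).re ≤ 1 - a →
        ‖aeval z p‖ ≤ σ := by
  obtain ⟨n, ρ, hρ0, hρ1, hU⟩ :=
    exists_contracting (show 0 < a / 2 by linarith) (show a / 2 ≤ 1 / 4 by linarith)
  obtain ⟨Pb, hPb⟩ : ∃ Pb : ℝ, Pb = 64 / a := ⟨_, rfl⟩
  have hPb0 : 0 < Pb := by rw [hPb]; positivity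
  obtain ⟨K, hK, hK1⟩ : ∃ K : ℕ, ((K : ℝ) + 2) * ρ ^ K * Pb ≤ 1 / 64 ∧ 1 ≤ K := by
    have h := tendsto_self_mul_const_pow_of_abs_lt_one (r := ρ) (by rw [abs_of_pos hρ0]; exact hρ1)
    obtain ⟨K, h1, h2⟩ := ((h.eventually (eventually_lt_nhds
      (show (0 : ℝ) < 1 / (192 * Pb) by positivity))).and (Filter.eventually_ge_atTop 1)).exists
    refine ⟨K, ?_, h2⟩
    have h3 : ((K : ℝ) + 2) * ρ ^ K ≤ 3 * ((K : ℝ) * ρ ^ K) := by
      rw [← mul_assoc]
      refine mul_le_mul_of_nonneg_right ?_ (by positivity)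
      have : (1 : ℝ) ≤ K := Nat.one_le_cast.2 h2
      linarith
    rw [lt_div_iff₀ (by positivity)] at h1
    have := mul_le_mul_of_nonneg_right h3 hPb0.le
    linarith
  refine ⟨n * (K + 1), fun σ hσ => ?_⟩
  set k := K + 1 with hk
  obtain ⟨Bd, hBd⟩ : ∃ Bd : ℝ, Bd = (1 + (n : ℝ)) ^ k := ⟨_, rfl⟩
  have hBd1 : 1 ≤ Bd := by rw [hBd]; exact one_le_pow₀ (by linarith [n.cast_nonneg (α := ℝ)])
  obtain ⟨τ, hτ0, hτ1, hτσ, hτk⟩ : ∃ τ : ℝ, 0 < τ ∧ τ ≤ 1 ∧ Bd * τ ≤ σ ∧
      ((k : ℝ) + 1) * Bd * τ ≤ 1 / 64 := by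
    refine ⟨min 1 (min (σ / Bd) (1 / (64 * (((k : ℝ) + 1) * Bd)))), by positivity,
      min_le_left _ _, ?_, ?_⟩
    · rw [mul_comm, ← le_div_iff₀ (by linarith)]
      exact (min_le_right _ _).trans (min_le_left _ _)
    · refine (mul_le_mul_of_nonneg_left ((min_le_right _ _).trans (min_le_right _ _))
        (by positivity)).trans_eq ?_
      field_simp
  obtain ⟨g, hg⟩ := exists_step ha ha2 hτ0 hτ1
  set m := g.natDegree
  set L := n * k
  refine ⟨m, (2 * (m + L) + 1 : ℕ) * (Bd * (2 + Pb)) + 1, le_add_of_nonneg_left (by positivity),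
    fun w hw => ?_⟩
  obtain ⟨U, hUm, hUn, hUz⟩ := hU w hw
  obtain ⟨G, hGd, hGz⟩ := exists_circle_profile g le_rfl hw
  have hUkd : (U ^ k).natDegree = L := by
    rw [hUm.natDegree_pow, hUn]; exact mul_comm _ _
  have hUkt : (U ^ k).coeff L = 1 := by rw [← hUkd]; exact (hUm.pow k).coeff_natDegree
  set R := U ^ k * G
  set Q := U ^ k * X ^ m - R with hQ
  set M := m + L
  have hRd : R.natDegree ≤ 2 * M :=
    natDegree_mul_le.trans (by rw [hUkd]; omega)
  have hQd : Q.natDegree ≤ 2 * M := (natDegree_sub_le _ _).trans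
    (max_le (natDegree_mul_le.trans (by rw [hUkd, natDegree_X_pow]; omega)) hRd)
  have hx : ∀ z : ℂ, ‖z‖ = 1 → (z * conj w).re ∈ Set.Icc (-1 : ℝ) 1 := fun z hz => by
    have h := Complex.abs_re_le_norm (z * conj w)
    rw [norm_mul, Complex.norm_conj, hz, hw, one_mul, abs_le] at h
    exact h
  have hUb : ∀ z : ℂ, ‖z‖ = 1 → ‖U.eval z‖ ^ k ≤ Bd := fun z hz => by
    rw [hBd]; exact pow_le_pow_left₀ (norm_nonneg _) (hUz z hz).1 k
  have hUzd : ∀ z : ℂ, ‖z‖ = 1 →
      ‖z * (U ^ k).derivative.eval z - (L : ℂ) * (U ^ k).eval z‖ ≤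
        (k : ℝ) * ‖U.eval z‖ ^ K := fun z hz => by
    have e : z * (U ^ k).derivative.eval z - (L : ℂ) * (U ^ k).eval z =
        (k : ℂ) * U.eval z ^ K * (z * U.derivative.eval z - (n : ℂ) * U.eval z) := by
      simp only [derivative_pow, eval_mul, eval_C, eval_pow, L, hk, Nat.add_sub_cancel]
      push_cast
      ring
    rw [e, norm_mul, norm_mul, norm_pow, Complex.norm_natCast]
    exact mul_le_of_le_one_right (by positivity) (hUz z hz).2.1
  have hl1 := coeff_l1 R hRd (fun z hz => ?_) fun z hz => ?_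
  rotate_left
  · obtain ⟨h1, h2, h3, h4⟩ := hg _ (hx z hz)
    simp only [R, eval_mul, eval_pow]
    rw [(hGz z hz).1, norm_mul, norm_mul, norm_pow, norm_pow, hz, one_pow, one_mul,
      Complex.norm_real, Real.norm_eq_abs]
    rcases le_or_gt (z * conj w).re (1 - a / 2) with hc | hc
    · have hu := (hUz z hz).2.2 hc
      refine (mul_le_mul (pow_le_pow_left₀ (norm_nonneg _) hu k) (h1.trans hPb.ge) (abs_nonneg _)
        (by positivity)).trans (le_trans ?_ hK)
      rw [hk, pow_succ']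
      refine mul_le_mul_of_nonneg_right ?_ hPb0.le
      exact (mul_le_of_le_one_left (by positivity) hρ1.le).trans
        (le_mul_of_one_le_left (by positivity) (by linarith [K.cast_nonneg (α := ℝ)]))
    · refine (mul_le_mul (hUb z hz) (h3 hc.le).1 (abs_nonneg _) (by linarith)).trans ?_
      have : Bd * τ ≤ ((k : ℝ) + 1) * Bd * τ := by
        rw [mul_assoc]
        exact le_mul_of_one_le_left (by positivity) (by linarith [k.cast_nonneg (α := ℝ)])
      linarith
  · obtain ⟨h1, h2, h3, h4⟩ := hg _ (hx z hz)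
    have e : z * R.derivative.eval z - (M : ℂ) * R.eval z =
        (z * (U ^ k).derivative.eval z - (L : ℂ) * (U ^ k).eval z) * G.eval z +
          (U ^ k).eval z * (z * G.derivative.eval z - (m : ℂ) * G.eval z) := by
      simp only [R, M, derivative_mul, eval_add, eval_mul]
      push_cast
      ring
    rw [e]
    refine (norm_add_le _ _).trans ?_
    have hGn : ‖G.eval z‖ = |g.eval (z * conj w).re| := by
      rw [(hGz z hz).1, norm_mul, norm_pow, hz, one_pow, one_mul, Complex.norm_real,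
        Real.norm_eq_abs]
    have hUn : ‖(U ^ k).eval z‖ = ‖U.eval z‖ ^ k := by rw [eval_pow, norm_pow]
    rw [norm_mul, norm_mul, hGn, hUn]
    have hd := (hGz z hz).2
    rcases le_or_gt (z * conj w).re (1 - a / 2) with hc | hc
    · have hu := (hUz z hz).2.2 hc
      have hu2 : ‖U.eval z‖ ^ k ≤ ρ ^ K := (pow_le_pow_left₀ (norm_nonneg _) hu k).trans
        (pow_le_pow_of_le_one hρ0.le hρ1.le (by omega))
      refine (add_le_add
        (mul_le_mul ((hUzd z hz).trans (mul_le_mul_of_nonneg_left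
          (pow_le_pow_left₀ (norm_nonneg _) hu K) (Nat.cast_nonneg k))) (h1.trans hPb.ge)
          (abs_nonneg _) (by positivity))
        (mul_le_mul hu2 (hd.trans (h2.trans hPb.ge)) (norm_nonneg _) (by positivity))).trans ?_
      refine le_trans (le_of_eq ?_) hK
      rw [hk]; push_cast; ring
    · have hu2 : ‖U.eval z‖ ^ K ≤ Bd := by
        rw [hBd]
        exact (pow_le_pow_left₀ (norm_nonneg _) (hUz z hz).1 K).trans
          (pow_le_pow_right₀ (by linarith [n.cast_nonneg (α := ℝ)]) (by omega))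
      refine (add_le_add
        (mul_le_mul ((hUzd z hz).trans (mul_le_mul_of_nonneg_left hu2 (Nat.cast_nonneg k)))
          (h3 hc.le).1 (abs_nonneg _) (by positivity))
        (mul_le_mul (hUb z hz) (hd.trans (h3 hc.le).2) (norm_nonneg _) (by positivity))).trans ?_
      linarith
  have hQz : ∀ z : ℂ, ‖z‖ = 1 →
      ‖Q.eval z‖ = ‖U.eval z‖ ^ k * |1 - g.eval (z * conj w).re| := fun z hz => by
    rw [hQ]
    simp only [R, eval_sub, eval_mul, eval_pow, eval_X]
    rw [(hGz z hz).1, show U.eval z ^ k * z ^ m - U.eval z ^ k *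
      (z ^ m * ((g.eval (z * conj w).re : ℝ) : ℂ)) =
        U.eval z ^ k * z ^ m * (((1 - g.eval (z * conj w).re : ℝ)) : ℂ) by push_cast; ring,
      norm_mul, norm_mul, norm_pow, norm_pow, hz, one_pow, mul_one, Complex.norm_real,
      Real.norm_eq_abs]
  obtain ⟨p, hp⟩ : ∃ p : ℝ[X], p = ∑ j ∈ range (2 * M + 1), C (Q.coeff j).re * X ^ j := ⟨_, rfl⟩
  have hpc : ∀ j, p.coeff j = (Q.coeff j).re := fun j => by
    rw [hp, finsetSum_coeff]
    simp only [coeff_C_mul, coeff_X_pow, mul_ite, mul_one, mul_zero, sum_ite_eq, mem_range]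
    split_ifs with hj
    · rfl
    · rw [coeff_eq_zero_of_natDegree_lt (by omega)]; simp
  have hQc : ∀ j, Q.coeff j = (U ^ k * X ^ m).coeff j - R.coeff j := fun j => by
    rw [hQ, coeff_sub]
  refine ⟨p, natDegree_le_iff_coeff_eq_zero.2 fun j hj => ?_, ?_, ?_, ?_, fun z hz hz1 hz2 => ?_⟩
  · rw [hpc, coeff_eq_zero_of_natDegree_lt (lt_of_le_of_lt hQd hj)]; simp
  · have hm : ‖R.coeff M‖ ≤ 1 / 16 :=
      (single_le_sum (f := fun j => ‖R.coeff j‖) (fun _ _ => norm_nonneg _)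
        (mem_range.2 (by omega : M < 2 * M + 1))).trans hl1
    show 15 / 16 ≤ |p.coeff M|
    have hM1 : (U ^ k * X ^ m).coeff M = (1 : ℂ) := by
      rw [coeff_mul_X_pow', if_pos (by omega), show M - m = L by omega, hUkt]
    rw [hpc, hQc, hM1]
    have := abs_le.1 ((Complex.abs_re_le_norm _).trans hm)
    exact le_trans (by simp; linarith) (le_abs_self _)
  · show ∑ j ∈ (range (2 * M + 1)).filter (fun j => j < m ∨ M < j), |p.coeff j| ≤ 1 / 16
    refine le_trans (sum_le_sum fun j hj => ?_) (le_trans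
      (sum_le_sum_of_subset_of_nonneg (filter_subset _ _) fun _ _ _ => norm_nonneg _) hl1)
    have hj' : (U ^ k * X ^ m).coeff j = 0 := by
      rw [coeff_mul_X_pow']
      split_ifs with hmj
      · refine coeff_eq_zero_of_natDegree_lt ?_
        have := (mem_filter.1 hj).2
        omega
      · rfl
    rw [hpc, hQc, hj', zero_sub, Complex.neg_re, abs_neg]
    exact Complex.abs_re_le_norm _
  · show ∑ j ∈ range (2 * M + 1), |p.coeff j| ≤ _
    refine le_trans ((sum_le_card_nsmul _ _ (Bd * (2 + Pb)) fun j hj => ?_).trans_eq ?_)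
      (le_add_of_nonneg_right zero_le_one)
    · have h := coeff_parseval Q hQd (β := Bd * (2 + Pb)) fun z hz => by
        rw [hQz z hz]
        refine mul_le_mul (hUb z hz) ?_ (abs_nonneg _) (by linarith)
        have := abs_le.1 ((hg _ (hx z hz)).1.trans hPb.ge)
        rw [abs_le]
        constructor <;> linarith
      rw [hpc]
      refine (Complex.abs_re_le_norm _).trans (le_of_pow_le_pow_left₀ two_ne_zero (by positivity) ?_)
      exact (single_le_sum (f := fun j => ‖Q.coeff j‖ ^ 2) (fun _ _ => sq_nonneg _) hj).trans h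
    · rw [card_range, nsmul_eq_mul]
  · have hcz : ‖conj z‖ = 1 := by rw [Complex.norm_conj, hz]
    have e : aeval z p = (Q.eval z + conj (Q.eval (conj z))) / 2 := by
      rw [eval_eq_sum_range' (Nat.lt_succ_of_le hQd), eval_eq_sum_range' (Nat.lt_succ_of_le hQd),
        hp, map_sum, map_sum, ← sum_add_distrib, sum_div]
      refine sum_congr rfl fun j _ => ?_
      simp only [map_mul, aeval_C, aeval_X, map_pow, Complex.conj_conj, Complex.coe_algebraMap,
        Complex.re_eq_add_conj]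
      ring
    have hb : ∀ u : ℂ, ‖u‖ = 1 → (u * conj w).re ≤ 1 - a → ‖Q.eval u‖ ≤ σ := fun u hu hu1 => by
      rw [hQz u hu]
      exact (mul_le_mul (hUb u hu) ((hg _ (hx u hu)).2.2.2 hu1) (abs_nonneg _)
        (by linarith)).trans hτσ
    rw [e, norm_div, Complex.norm_ofNat, div_le_iff₀ (by norm_num)]
    refine (norm_add_le _ _).trans ?_
    rw [Complex.norm_conj]
    linarith [hb z hz hz1, hb (conj z) hcz hz2]

end Vale.Agent.P110.Dense
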