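import Vale.Agent.P110.Delay.Main
import Vale.Agent.P110.Dense.Filter
import Vale.Agent.P110.Dense.Det
import Vale.Agent.P110.Dense.Estimate

/-!
P110: the group delay of a nearly flat Littlewood polynomial takes all values often on every arc.
-/

namespace Vale.Agent.P110.Dense

open Finset Polynomial Complex Vale.Agent.P110.Window Vale.Agent.P110.Delay
open scoped ComplexConjugate

theorem delay_sums (h : ℕ → ℝ) (N : ℕ) (z : ℂ) :
    delay h N z = ((∑ k ∈ range N, (k : ℂ) * (h k : ℂ) * z ^ k) / pol h N z).re / N := by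
  have hd : HasDerivAt (pol h N) (∑ k ∈ range N, (h k : ℂ) * ((k : ℂ) * z ^ (k - 1))) z := by
    have := HasDerivAt.fun_sum (u := range N) (A := fun k u => (h k : ℂ) * u ^ k)
      (A' := fun k => (h k : ℂ) * ((k : ℂ) * z ^ (k - 1))) (x := z)
      fun k _ => (hasDerivAt_pow k z).const_mul _
    unfold pol
    simpa using this
  have e : z * ∑ k ∈ range N, (h k : ℂ) * ((k : ℂ) * z ^ (k - 1)) =
      ∑ k ∈ range N, (k : ℂ) * (h k : ℂ) * z ^ k := by
    rw [mul_sum]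
    refine sum_congr rfl fun k _ => ?_
    rcases k with _ | m
    · simp
    · rw [Nat.add_sub_cancel, pow_succ]; ring
  rw [delay, hd.deriv, e]

theorem delay_conj (h : ℕ → ℝ) (N : ℕ) (z : ℂ) : delay h N (conj z) = delay h N z := by
  rw [delay_sums, delay_sums, ← pol_conj]
  have e : ∑ k ∈ range N, (k : ℂ) * (h k : ℂ) * (conj z) ^ k =
      conj (∑ k ∈ range N, (k : ℂ) * (h k : ℂ) * z ^ k) := by
    simp [map_sum]
  rw [e, ← map_div₀, Complex.conj_re]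

/-- The filtered sequence where the tent is large, against the filtered window. -/
theorem out_sq_le {c r : ℝ} (hr : 0 < r) {h : ℕ → ℝ} {N : ℕ} (hh : ∀ k < N, |h k| = 1)
    {p : ℝ[X]} {d : ℕ} {D : ℝ} (hD : 0 ≤ D) (hcoef : ∀ m ≤ d, |p.coeff m| ≤ D) {i : ℕ}
    (hi : i + d < N) (hw : 1 / 4 ≤ tent c r ((i : ℝ) / N)) :
    out p d h i ^ 2 ≤ 32 * (‖∑ m ∈ range (d + 1), (p.coeff m : ℂ) *
      ((tent c r ((((i + m) % N : ℕ) : ℝ) / N) : ℂ) * h ((i + m) % N))‖ ^ 2 +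
        (((d : ℝ) + 1) ^ 2 * D / r / N) ^ 2) := by
  have hNr : (0 : ℝ) < N := Nat.cast_pos.2 (by omega)
  set w := tent c r ((i : ℝ) / N) with hw_def
  set u : ℝ := ∑ m ∈ range (d + 1), p.coeff m *
    (tent c r (((i + m : ℕ) : ℝ) / N) * h (i + m)) with hu
  have hVu : (∑ m ∈ range (d + 1), (p.coeff m : ℂ) *
      ((tent c r ((((i + m) % N : ℕ) : ℝ) / N) : ℂ) * h ((i + m) % N))) = (u : ℂ) := by
    rw [hu]
    simp only [ofReal_sum, ofReal_mul]
    refine sum_congr rfl fun m hm => ?_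
    rw [Nat.mod_eq_of_lt (by have := mem_range.1 hm; omega)]
  set y := out p d h i with hy_def
  set E0 : ℝ := ((d : ℝ) + 1) ^ 2 * D / r / N with hE0
  have hdiff : |w * y - u| ≤ E0 := by
    rw [hy_def, out, hu, mul_sum, ← sum_sub_distrib]
    refine (abs_sum_le_sum_abs _ _).trans ?_
    have hterm : ∀ m ∈ range (d + 1), |w * (p.coeff m * h (i + m)) -
        p.coeff m * (tent c r (((i + m : ℕ) : ℝ) / N) * h (i + m))| ≤
        D * (((d : ℝ) + 1) / N / r) := by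
      intro m hm
      have hm' := mem_range.1 hm
      rw [show w * (p.coeff m * h (i + m)) -
          p.coeff m * (tent c r (((i + m : ℕ) : ℝ) / N) * h (i + m)) =
        p.coeff m * ((w - tent c r (((i + m : ℕ) : ℝ) / N)) * h (i + m)) by ring,
        abs_mul, abs_mul, hh (i + m) (by omega), mul_one]
      refine mul_le_mul (hcoef m (by omega)) ((Delay.tent_lipschitz _ hr _ _).trans ?_)
        (abs_nonneg _) hD
      refine div_le_div_of_nonneg_right ?_ hr.le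
      rw [← sub_div, abs_div, abs_of_pos hNr, Nat.cast_add, sub_add_cancel_left, abs_neg,
        Nat.abs_cast]
      refine div_le_div_of_nonneg_right ?_ hNr.le
      exact_mod_cast Nat.le_of_lt_succ (hm'.trans (Nat.lt_succ_self _))
    refine (sum_le_sum hterm).trans (le_of_eq ?_)
    rw [sum_const, card_range, nsmul_eq_mul, hE0]
    push_cast
    ring
  rw [hVu, Complex.norm_real, Real.norm_eq_abs, sq_abs]
  have h1 : |y| ≤ 4 * (|u| + E0) := by
    have h2 : |w * y| ≤ |u| + E0 := by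
      have := abs_sub_abs_le_abs_sub (w * y) u
      linarith
    rw [abs_mul, abs_of_nonneg (tent_nonneg _ _ _)] at h2
    have := mul_le_mul_of_nonneg_right hw (abs_nonneg y)
    linarith
  have h3 : y ^ 2 ≤ (4 * (|u| + E0)) ^ 2 := by
    rw [← sq_abs y]; exact pow_le_pow_left₀ (abs_nonneg _) h1 2
  nlinarith [sq_nonneg (|u| - E0), sq_abs u]

/-- The places of a window. -/
noncomputable def places (c r : ℝ) (d N : ℕ) : Finset ℕ :=
  (range (N - d)).filter fun i : ℕ => 1 / 4 ≤ tent c r ((i : ℝ) / N)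

theorem window_out {c r : ℝ} (hr : 0 < r) {n : ℕ} (a : Fin n → ℂ) (lam : Fin n → ℝ) {ε : ℝ}
    (hε : 0 < ε) (happ : ∀ x : ℝ, ‖(tent c r x : ℂ) - expSum a lam x‖ ≤ ε) {ξ D σ : ℝ} (hD : 1 ≤ D)
    (hσ : 0 ≤ σ) (hξ : ξ * (∑ m, ‖a m‖ + 1) ≤ ε) (hξ0 : 0 ≤ ξ)
    {h : ℕ → ℝ} {N : ℕ} (hN : 0 < N) (hh : ∀ k < N, |h k| = 1)
    {ζ : ℂ} (hζ : IsPrimitiveRoot ζ N) {p : ℝ[X]} {d : ℕ} (hdeg : p.natDegree ≤ d)
    (hcoef : ∑ j ∈ range (d + 1), |p.coeff j| ≤ D)
    (hPz : ∀ s, ‖pol h N (ζ ^ s)‖ ≤ 2 * Real.sqrt N)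
    (t : ℕ → ℝ) (hwave : ∀ s, ∀ m : Fin n,
      ‖pol h N (ζ ^ s * exp (I * (lam m / N : ℝ))) -
        pol h N (ζ ^ s) * exp (I * (lam m * t s : ℝ))‖ ≤ ξ * Real.sqrt N)
    (E : Finset ℕ) (hE : (E.card : ℝ) * D ^ 2 ≤ σ ^ 2 * N)
    (hp' : ∀ s < N, 0 < tent c r (t s) → s ∉ E → ‖aeval (ζ ^ s) p‖ ≤ σ) :
    ∑ i ∈ places c r d N, out p d h i ^ 2 ≤
      32 * (24 * σ ^ 2 * N + 30 * D ^ 2 * ε ^ 2 * N + (((d : ℝ) + 1) ^ 2 * D / r) ^ 2 / N) := by
  have hNr : (0 : ℝ) < N := Nat.cast_pos.2 hN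
  have hD0 : 0 < D := by linarith
  have hA : ∀ s, ‖aeval (ζ ^ s) p‖ ≤ D := fun s => by
    rw [aeval_eq_sum_range' (Nat.lt_succ_of_le hdeg)]
    refine (norm_sum_le _ _).trans (le_trans (le_of_eq (sum_congr rfl fun j _ => ?_)) hcoef)
    rw [Complex.real_smul, norm_mul, norm_pow, norm_pow, hζ.norm'_eq_one hN.ne', one_pow, one_pow,
      mul_one, Complex.norm_real, Real.norm_eq_abs]
  obtain ⟨ω, hωe⟩ : ∃ ω : ℕ → ℝ, ω = fun s => if s % N ∈ E then 1 else σ / D := ⟨_, rfl⟩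
  have hmodE : ∀ s, s < N → s % N = s := fun s hs => Nat.mod_eq_of_lt hs
  have hest := weighted_estimate hr a lam hε happ hD0.le (ω := fun s => if s < N then ω s else 1)
    (fun s => by simp only [hωe]; split_ifs <;> positivity) hξ hξ0 hN hh hζ p hPz
    t hwave hA fun s hs => by
      simp only [hωe]
      split_ifs with h1 h2
      · rw [mul_one]; exact hA s
      · rw [mul_div_cancel₀ _ hD0.ne']
        exact hp' s h1 hs (by rwa [hmodE s h1] at h2)
      · rw [mul_one]; exact hA s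
  have e : ∀ k, ∑ i ∈ range (p.natDegree + 1),
      (p.coeff i : ℂ) * ((tent c r (((k + i) % N : ℕ) / (N : ℝ)) : ℂ) * h ((k + i) % N)) =
    ∑ i ∈ range (d + 1),
      (p.coeff i : ℂ) * ((tent c r (((k + i) % N : ℕ) / (N : ℝ)) : ℂ) * h ((k + i) % N)) := fun k =>
    sum_subset (range_mono (by omega)) fun i _ hi => by
      rw [coeff_eq_zero_of_natDegree_lt (by rw [mem_range] at hi; omega), ofReal_zero, zero_mul]
  simp only [e] at hest
  refine (sum_le_sum fun i hi => ?_).trans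
    (b := ∑ i ∈ places c r d N, 32 * (‖∑ m ∈ range (d + 1), (p.coeff m : ℂ) *
        ((tent c r ((((i + m) % N : ℕ) : ℝ) / N) : ℂ) * h ((i + m) % N))‖ ^ 2 +
          (((d : ℝ) + 1) ^ 2 * D / r / N) ^ 2)) ?_
  · obtain ⟨hiN, hw⟩ := mem_filter.1 hi
    refine out_sq_le hr hh hD0.le (fun m hm => ?_) (by have := mem_range.1 hiN; omega) hw
    exact (single_le_sum (f := fun j => |p.coeff j|) (fun _ _ => abs_nonneg _)
      (mem_range.2 (Nat.lt_succ_of_le hm))).trans hcoef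
  rw [← mul_sum, sum_add_distrib, sum_const, nsmul_eq_mul]
  refine mul_le_mul_of_nonneg_left (add_le_add ?_ ?_) (by norm_num)
  · refine le_trans (sum_le_sum_of_subset_of_nonneg (t := range N) (fun i hi => ?_)
      fun _ _ _ => sq_nonneg _) ?_
    · have := mem_range.1 (mem_filter.1 hi).1
      exact mem_range.2 (by omega)
    · refine le_of_mul_le_mul_left (hest.trans ?_) hNr
      have ht : ∑ s ∈ range N, (if s < N then ω s else 1) ^ 2 * tent c r (t s) ≤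
          ∑ s ∈ range N, ((σ / D) ^ 2 + if s ∈ E then 1 else 0) := sum_le_sum fun s hs => by
        have hsN := mem_range.1 hs
        rw [if_pos hsN, hωe]
        simp only [hmodE s hsN]
        refine (mul_le_of_le_one_right (sq_nonneg _) (tent_le_one c hr _)).trans ?_
        split_ifs
        · rw [one_pow]; exact le_add_of_nonneg_left (sq_nonneg _)
        · rw [add_zero]
      rw [sum_add_distrib, sum_const, card_range, nsmul_eq_mul, sum_ite_mem, sum_const,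
        nsmul_eq_mul, mul_one] at ht
      have hc : ((range N ∩ E).card : ℝ) ≤ E.card := Nat.cast_le.2 (card_le_card inter_subset_right)
      have h1 := mul_le_mul_of_nonneg_left (ht.trans (add_le_add le_rfl hc))
        (show 0 ≤ 12 * D ^ 2 by positivity)
      rw [show 12 * D ^ 2 * (N * (σ / D) ^ 2 + (E.card : ℝ)) =
        12 * σ ^ 2 * N + 12 * ((E.card : ℝ) * D ^ 2) by field_simp] at h1
      have h2 := mul_le_mul_of_nonneg_left (h1.trans (add_le_add le_rfl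
        (mul_le_mul_of_nonneg_left hE (show (0 : ℝ) ≤ 12 by norm_num)))) hNr.le
      linarith
  · refine (mul_le_mul_of_nonneg_right (?_ : (_ : ℝ) ≤ N) (sq_nonneg _)).trans (le_of_eq ?_)
    · exact Nat.cast_le.2 ((card_filter_le _ _).trans (by rw [card_range]; omega))
    · field_simp

/-- Where a window changes sign under the shift by the period, a filtered value nearby is large. -/
theorem near_big {c r : ℝ} (hr : 0 < r) (hc : 4 * r ≤ c) (hc' : c ≤ 1 - 4 * r) {m L P d : ℕ}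
    (hP : P = period L) (hd : d = 2 * (m + L)) {p : ℝ[X]} (htop : 15 / 16 ≤ |p.coeff (m + L)|)
    (hout : ∑ j ∈ (range (2 * (m + L) + 1)).filter (fun j => j < m ∨ m + L < j), |p.coeff j| ≤
      1 / 16) {h : ℕ → ℝ} {N : ℕ} (hh : ∀ k < N, |h k| = 1)
    (hbig : 8 * ((P : ℝ) + (2 ^ L : ℕ) + 1 + (d : ℕ)) ≤ r * N) {k : ℕ} (hlt : k + P < N)
    (hne : h (k + P) ≠ h k) (hpos : 0 < tent c (r / 2) (((k + P : ℕ) : ℝ) / N)) :
    ∃ o < 2 ^ L + P + 1, 2 ^ L + m ≤ k + o ∧ k + o - (2 ^ L + m) ∈ places c r d N ∧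
      1 / 4 ≤ out p d h (k + o - (2 ^ L + m)) ^ 2 := by
  obtain ⟨s0, hs0⟩ : ∃ s0, s0 = 2 ^ L + m := ⟨_, rfl⟩
  rw [← hs0]
  have hP0 : (0 : ℝ) ≤ P := Nat.cast_nonneg _
  have h20 : (0 : ℝ) ≤ (2 ^ L : ℕ) := Nat.cast_nonneg _
  have hd0 : (0 : ℝ) ≤ (d : ℕ) := Nat.cast_nonneg _
  have hm0 : (0 : ℝ) ≤ m := Nat.cast_nonneg _
  have hmd : (m : ℝ) ≤ (d : ℕ) := Nat.cast_le.2 (by omega)
  have hNr : (0 : ℝ) < N := Nat.cast_pos.2 (by omega)
  have hkP1 : ((k + P : ℕ) : ℝ) / N ≤ 1 := (div_le_one hNr).2 (Nat.cast_le.2 hlt.le)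
  have hkP0 : 0 ≤ ((k + P : ℕ) : ℝ) / N := by positivity
  have hnear := abs_lt.1
    (tent_pos (by linarith) (abs_le.2 ⟨by linarith, by linarith⟩) hpos)
  have hlow : (c - r / 2) * N < (k : ℝ) + P := by
    have : c - r / 2 < ((k + P : ℕ) : ℝ) / N := by linarith [hnear.1]
    rw [lt_div_iff₀ hNr, Nat.cast_add] at this; exact this
  have hhigh : (k : ℝ) + P < (c + r / 2) * N := by
    have : ((k + P : ℕ) : ℝ) / N < c + r / 2 := by linarith [hnear.2]
    rw [div_lt_iff₀ hNr, Nat.cast_add] at this; exact this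
  have hlow' : (3 * r) * N ≤ (c - r / 2) * N := mul_le_mul_of_nonneg_right (by linarith) hNr.le
  have hhigh' : (c + r / 2) * N ≤ (1 - 3 * r) * N := mul_le_mul_of_nonneg_right (by linarith) hNr.le
  have hks : s0 ≤ k := by
    have : ((s0 : ℕ) : ℝ) ≤ k := by rw [hs0, Nat.cast_add]; linarith
    exact_mod_cast this
  have hkd : k + P + d < N := by
    have : ((k + P + d : ℕ) : ℝ) < N := by rw [Nat.cast_add, Nat.cast_add]; linarith
    exact_mod_cast this
  obtain ⟨o, ho, hyo⟩ : ∃ o ≤ 2 ^ L + P, 1 / 2 ≤ |out p d h (k - s0 + o)| := by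
    by_contra hcon
    push Not at hcon
    refine hne ?_
    rw [hP] at hcon hlt hkd ⊢
    have key := periodic_of_step (L := L) (x := fun i => h (k - s0 + m + i))
      (fun i hi => hh _ (by omega)) fun i i' hi hi' hj => by
        have y1 := hcon i hi
        have y2 := hcon i' hi'
        rw [hd] at y1 y2
        have hs := det_step htop hout (h := h) (i := k - s0 + i) (i' := k - s0 + i')
          (fun j hj' => ⟨hh _ (by omega), hh _ (by omega)⟩) y1 y2 fun j hjL => by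
            rw [show k - s0 + i + m + j = k - s0 + m + (i + j) by omega,
              show k - s0 + i' + m + j = k - s0 + m + (i' + j) by omega]
            exact hj j hjL
        show h (k - s0 + m + (i + L)) = h (k - s0 + m + (i' + L))
        rw [show k - s0 + m + (i + L) = k - s0 + i + m + L by omega,
          show k - s0 + m + (i' + L) = k - s0 + i' + m + L by omega]
        exact hs
    rw [show k - s0 + m + (2 ^ L + period L) = k + period L by omega,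
      show k - s0 + m + 2 ^ L = k by omega] at key
    exact key
  refine ⟨o, by omega, by omega, ?_, ?_⟩
  · rw [show k + o - s0 = k - s0 + o by omega]
    refine mem_filter.2 ⟨mem_range.2 (by omega), ?_⟩
    have a1 : (o : ℝ) ≤ (2 ^ L : ℕ) + P := by exact_mod_cast ho
    have a2 : (0 : ℝ) ≤ o := Nat.cast_nonneg _
    have hd1 : |((k - s0 + o : ℕ) : ℝ) / N - c| ≤ 3 * r / 4 := by
      rw [abs_le, le_sub_iff_add_le, sub_le_iff_le_add, le_div_iff₀ hNr, div_le_iff₀ hNr,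
        Nat.cast_add, Nat.cast_sub hks, hs0, Nat.cast_add]
      constructor <;> linarith
    rw [tent_eq (hd1.trans (by linarith))]
    refine le_max_of_le_right ?_
    have : |((k - s0 + o : ℕ) : ℝ) / N - c| / r ≤ 3 / 4 := by
      rw [div_le_iff₀ hr]; linarith
    linarith
  · rw [show k + o - s0 = k - s0 + o by omega, ← sq_abs]
    nlinarith

theorem tent_edge {c r x : ℝ} (hr : 0 < r) (hc : 4 * r ≤ c) (hc' : c ≤ 1 - 4 * r) (h0 : 0 ≤ x)
    (h1 : x ≤ 1) (hx : x ≤ r ∨ 1 - r ≤ x) : tent c (r / 2) x = 0 := by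
  refine tent_eq_zero (by linarith) (abs_le.2 ⟨by linarith, by linarith⟩) ?_
  rcases hx with hx | hx
  · exact le_trans (by linarith) (neg_le_abs _)
  · exact le_trans (by linarith) (le_abs_self _)

theorem mod_sub_lt {k P N : ℕ} (hk : k < N) (hP : P ≤ N) (h : N ≤ k + P) :
    (k + P) % N = k + P - N := by
  rw [Nat.mod_eq_sub_mod h, Nat.mod_eq_of_lt (by omega)]

/-- A window changes under the shift by the period only next to large filtered values. -/
theorem shift_le_out {c r : ℝ} (hr : 0 < r) (hc : 4 * r ≤ c) (hc' : c ≤ 1 - 4 * r) {m L P d : ℕ}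
    (hP : P = period L) (hd : d = 2 * (m + L)) {p : ℝ[X]} (htop : 15 / 16 ≤ |p.coeff (m + L)|)
    (hout : ∑ j ∈ (range (2 * (m + L) + 1)).filter (fun j => j < m ∨ m + L < j), |p.coeff j| ≤
      1 / 16) {h : ℕ → ℝ} {N : ℕ} (hh : ∀ k < N, |h k| = 1)
    (hbig : 8 * ((P : ℝ) + (2 ^ L : ℕ) + 1 + (d : ℕ)) ≤ r * N) :
    ∑ k ∈ range N, (tent c (r / 2) ((((k + P) % N : ℕ) : ℝ) / N) * h ((k + P) % N) -
        tent c (r / 2) ((k : ℝ) / N) * h k) ^ 2 ≤
      32 * ((P : ℝ) + (2 ^ L : ℕ) + 1) * ∑ i ∈ places c r d N, out p d h i ^ 2 +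
          8 * (P : ℝ) ^ 2 / r ^ 2 / N := by
  classical
  have hP0 : (0 : ℝ) ≤ P := Nat.cast_nonneg _
  have h20 : (0 : ℝ) ≤ (2 ^ L : ℕ) := Nat.cast_nonneg _
  have hd0 : (0 : ℝ) ≤ (d : ℕ) := Nat.cast_nonneg _
  have hNr : (0 : ℝ) < N := by
    by_contra h0
    nlinarith [(N.cast_nonneg : (0 : ℝ) ≤ N)]
  have hrN : r * N ≤ 1 * N := mul_le_mul_of_nonneg_right (by linarith) hNr.le
  have hPN : P ≤ N := by
    have : (P : ℝ) ≤ N := by linarith
    exact_mod_cast this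
  obtain ⟨Bad, hBad⟩ : ∃ Bad : ℕ → ℝ, Bad = fun i => if 2 ^ L + m ≤ i ∧
      i - (2 ^ L + m) ∈ places c r d N then out p d h (i - (2 ^ L + m)) ^ 2 else 0 := ⟨_, rfl⟩
  have hBad0 : ∀ i, 0 ≤ Bad i := fun i => by rw [hBad]; dsimp only; split_ifs <;> positivity
  have hpt : ∀ k ∈ range N, (tent c (r / 2) ((((k + P) % N : ℕ) : ℝ) / N) * h ((k + P) % N) -
      tent c (r / 2) ((k : ℝ) / N) * h k) ^ 2 ≤
      32 * (∑ o ∈ range (2 ^ L + P + 1), Bad (k + o)) + 8 * (P : ℝ) ^ 2 / r ^ 2 / N / N := by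
    intro k hk
    have hkN := mem_range.1 hk
    have hsum0 : 0 ≤ ∑ o ∈ range (2 ^ L + P + 1), Bad (k + o) :=
      Finset.sum_nonneg fun o _ => hBad0 _
    have hrest0 : 0 ≤ 8 * (P : ℝ) ^ 2 / r ^ 2 / N / N := by positivity
    rcases le_or_gt N (k + P) with hge | hlt
    · have hm := mod_sub_lt hkN hPN hge
      have z1 : tent c (r / 2) ((((k + P) % N : ℕ) : ℝ) / N) = 0 := by
        have h1 : (((k + P) % N : ℕ) : ℝ) / N ≤ r := by
          rw [div_le_iff₀ hNr, hm]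
          have : ((k + P - N : ℕ) : ℝ) ≤ P := Nat.cast_le.2 (by omega)
          linarith
        exact tent_edge hr hc hc' (by positivity) (h1.trans (by linarith)) (Or.inl h1)
      have z2 : tent c (r / 2) ((k : ℝ) / N) = 0 := by
        have h1 : 1 - r ≤ (k : ℝ) / N := by
          rw [le_div_iff₀ hNr]
          have : (N : ℝ) ≤ k + P := by exact_mod_cast hge
          linarith
        exact tent_edge hr hc hc' (by positivity) ((div_le_one hNr).2 (Nat.cast_le.2 hkN.le))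
          (Or.inr h1)
      rw [z1, z2, zero_mul, zero_mul, sub_zero, zero_pow two_ne_zero]
      linarith
    rw [Nat.mod_eq_of_lt hlt]
    set φ' := tent c (r / 2) (((k + P : ℕ) : ℝ) / N) with hφ'
    set φ := tent c (r / 2) ((k : ℝ) / N)
    have hdec : (φ' * h (k + P) - φ * h k) ^ 2 ≤
        2 * φ' ^ 2 * (h (k + P) - h k) ^ 2 + 2 * (φ' - φ) ^ 2 := by
      have hk1 : h k ^ 2 = 1 := by rw [← sq_abs, hh k hkN, one_pow]
      nlinarith [sq_nonneg (φ' * (h (k + P) - h k) - (φ' - φ) * h k)]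
    have hlip : 2 * (φ' - φ) ^ 2 ≤ 8 * (P : ℝ) ^ 2 / r ^ 2 / N / N := by
      have h1 : |φ' - φ| ≤ (P : ℝ) / N / (r / 2) := by
        refine (Delay.tent_lipschitz _ (by linarith) _ _).trans (le_of_eq ?_)
        rw [← sub_div, Nat.cast_add, add_sub_cancel_left, abs_div, abs_of_pos hNr, Nat.abs_cast]
      rw [← sq_abs (φ' - φ)]
      refine (mul_le_mul_of_nonneg_left (pow_le_pow_left₀ (abs_nonneg _) h1 2) zero_le_two).trans
        (le_of_eq ?_)
      field_simp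
      ring
    refine hdec.trans (add_le_add ?_ hlip)
    by_cases heq : h (k + P) = h k
    · rw [heq, sub_self]
      simpa using hsum0
    rcases (tent_nonneg c (r / 2) (((k + P : ℕ) : ℝ) / N)).eq_or_lt with h0 | h0
    · rw [hφ', ← h0]
      simpa using hsum0
    obtain ⟨o, ho, hge, hmem, hbad⟩ := near_big hr hc hc' hP hd htop hout hh hbig hlt heq h0
    have h1 : 1 / 4 ≤ Bad (k + o) := by
      rw [hBad]
      simp only
      rwa [if_pos ⟨hge, hmem⟩]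
    have h2 := single_le_sum (f := fun o => Bad (k + o)) (fun o _ => hBad0 _) (mem_range.2 ho)
    have h4 : (h (k + P) - h k) ^ 2 ≤ 4 := by
      nlinarith [sq_abs (h (k + P)), sq_abs (h k), hh (k + P) hlt, hh k hkN,
        sq_nonneg (h (k + P) + h k)]
    have h5 : φ' ^ 2 ≤ 1 := pow_le_one₀ (tent_nonneg _ _ _) (tent_le_one _ (by linarith) _)
    have h6 := mul_le_mul h5 h4 (sq_nonneg _) zero_le_one
    linarith
  refine (sum_le_sum hpt).trans ?_
  rw [sum_add_distrib, sum_const, card_range, nsmul_eq_mul, ← mul_sum, sum_comm]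
  refine add_le_add ?_ (le_of_eq (by field_simp))
  rw [mul_assoc]
  refine mul_le_mul_of_nonneg_left ?_ (by norm_num)
  refine (sum_le_card_nsmul _ _ (∑ i ∈ places c r d N, out p d h i ^ 2) fun o _ => ?_).trans
    (le_of_eq ?_)
  · simp only [hBad]
    rw [← sum_filter]
    rw [← sum_image (g := fun k => k + o - (2 ^ L + m)) (f := fun i => out p d h i ^ 2)
      fun a ha b hb hab => by
        have := (mem_filter.1 ha).2.1
        have := (mem_filter.1 hb).2.1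
        simp only at hab
        omega]
    refine sum_le_sum_of_subset_of_nonneg (fun i hi => ?_) fun i _ _ => sq_nonneg _
    obtain ⟨k, hk, rfl⟩ := mem_image.1 hi
    exact (mem_filter.1 hk).2.2
  · rw [card_range, nsmul_eq_mul]
    push_cast
    ring

/-- The concluding arithmetic. -/
theorem no_gap {N r A J L0 D σ ε κ Sv Δ S K P : ℝ} (hN : 1 ≤ N) (hr : 0 < r) (hJ : 0 < J)
    (hL0 : 0 < L0) (hA : 1024 * A ^ 2 / r ≤ J) (hκ : κ = r / (64 * J ^ 2)) (hr1 : r ≤ 1)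
    (hlow : Sv ≤ 16 * A ^ 2 * N / J + 4 * (r / 32) ^ 2 * N + 2 * J ^ 2 * Δ)
    (hmass : r / 2 * N / 8 ≤ Sv) (hup : Δ ≤ 32 * L0 * S + 8 * P ^ 2 / r ^ 2 / N)
    (hS : S ≤ 32 * (24 * σ ^ 2 * N + 30 * D ^ 2 * ε ^ 2 * N + K / N))
    (hσ0 : 0 ≤ σ) (hσ1 : σ ≤ 1) (hσ : σ * (98304 * L0) ≤ κ)
    (hε0 : 0 ≤ ε) (hε1 : ε ≤ 1) (hε : ε * (122880 * L0 * D ^ 2) ≤ κ)
    (hK : 4 * (8 * P ^ 2 / r ^ 2 + 1024 * L0 * K) / κ ≤ N) : False := by
  have hN0 : 0 < N := by linarith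
  have hκ0 : 0 < κ := by rw [hκ]; positivity
  have c1 : 16 * A ^ 2 * N / J ≤ r / 64 * N := by
    rw [div_le_iff₀ hJ]
    rw [div_le_iff₀ hr] at hA
    linarith [mul_le_mul_of_nonneg_right hA hN0.le]
  have c2 : 4 * (r / 32) ^ 2 * N ≤ r / 64 * N :=
    mul_le_mul_of_nonneg_right (by nlinarith) hN0.le
  have c3 : κ * N ≤ Δ := by
    have h1 : r / 32 * N ≤ 2 * J ^ 2 * Δ := by linarith
    rw [hκ, div_mul_eq_mul_div, div_le_iff₀ (by positivity)]
    linarith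
  have c4 : 32 * L0 * (32 * (24 * σ ^ 2 * N)) ≤ κ / 4 * N := by
    have h1 : σ ^ 2 ≤ σ := by rw [sq]; exact mul_le_of_le_one_left hσ0 hσ1
    have h3 := mul_le_mul_of_nonneg_left h1 (show 0 ≤ 24576 * L0 * N by positivity)
    have h4 := mul_le_mul_of_nonneg_right hσ hN0.le
    linarith
  have c5 : 32 * L0 * (32 * (30 * D ^ 2 * ε ^ 2 * N)) ≤ κ / 4 * N := by
    have h1 : ε ^ 2 ≤ ε := by rw [sq]; exact mul_le_of_le_one_left hε0 hε1
    have h3 := mul_le_mul_of_nonneg_left h1 (show 0 ≤ 30720 * L0 * D ^ 2 * N by positivity)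
    have h4 := mul_le_mul_of_nonneg_right hε hN0.le
    linarith
  have c6 : 32 * L0 * (32 * (K / N)) + 8 * P ^ 2 / r ^ 2 / N ≤ κ / 4 * N := by
    rw [show 32 * L0 * (32 * (K / N)) = 1024 * L0 * K / N by ring, ← add_div, div_le_iff₀ hN0]
    rw [div_le_iff₀ hκ0] at hK
    have h3 : N * κ ≤ N * κ * N := le_mul_of_one_le_right (by positivity) hN
    linarith
  have c7 := mul_le_mul_of_nonneg_left hS (show 0 ≤ 32 * L0 by positivity)
  linarith [mul_pos hκ0 hN0]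

/-- The group delay of a nearly flat Littlewood polynomial takes values in every interval of
`[0, 1]` on a positive proportion of the roots of unity in every arc. -/
theorem delay_dense {δ ω : ℝ} (hδ : 0 < δ) (hω : 0 < ω) :
    ∃ η : ℝ, 0 < η ∧ ∃ γ : ℝ, 0 < γ ∧ ∃ N₀ : ℕ,
    ∀ (h : ℕ → ℝ) (N : ℕ), N₀ ≤ N → (∀ k < N, |h k| = 1) → Flat h N η →
      ∀ θ₀ a : ℝ, 0 ≤ a → a + δ ≤ 1 → γ * N ≤ (({s : ℕ | s < N ∧
        ‖exp (2 * Real.pi * I / N) ^ s - exp (θ₀ * I)‖ ≤ ω ∧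
        delay h N (exp (2 * Real.pi * I / N) ^ s) ∈ Set.Icc a (a + δ)}).ncard : ℝ) := by
  rcases lt_or_ge 1 δ with hδ1 | hδ1
  · exact ⟨1, one_pos, 1, one_pos, 0, fun h N _ _ _ θ₀ a ha ha' => absurd ha' (by linarith)⟩
  obtain ⟨r, hre⟩ : ∃ r : ℝ, r = δ / 8 := ⟨_, rfl⟩
  have hr : 0 < r := by linarith
  obtain ⟨ω1, hω1e⟩ : ∃ ω1 : ℝ, ω1 = min ω 1 := ⟨_, rfl⟩
  have hω1 : 0 < ω1 := by rw [hω1e]; exact lt_min hω one_pos
  have hω11 : ω1 ≤ 1 := by rw [hω1e]; exact min_le_right _ _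
  obtain ⟨L, hfil⟩ := exists_filter (a := ω1 ^ 2 / 2) (by positivity) (by nlinarith)
  obtain ⟨P, hPe⟩ : ∃ P : ℕ, P = period L := ⟨_, rfl⟩
  have hPpos : 0 < P := by rw [hPe]; exact Nat.factorial_pos _
  obtain ⟨L0, hL0e⟩ : ∃ L0 : ℝ, L0 = (P : ℝ) + ((2 ^ L : ℕ) : ℝ) + 1 := ⟨_, rfl⟩
  have hL0 : 0 < L0 := by rw [hL0e]; positivity
  obtain ⟨n1, a1, lam1, happ1⟩ :=
    exists_approx 0 (show 0 < r / 2 by linarith) (show 0 < r / 32 by linarith)
  obtain ⟨A1, hA1e⟩ : ∃ A1 : ℝ, A1 = ∑ m, ‖a1 m‖ := ⟨_, rfl⟩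
  obtain ⟨J, hJ1, hJ2⟩ : ∃ J : ℕ, 1024 * A1 ^ 2 / r ≤ (J : ℝ) ∧ 0 < J :=
    ⟨⌈1024 * A1 ^ 2 / r⌉₊ + 1, by push_cast; linarith [Nat.le_ceil (1024 * A1 ^ 2 / r)], by omega⟩
  have hJr : (0 : ℝ) < J := Nat.cast_pos.2 hJ2
  obtain ⟨κ, hκe⟩ : ∃ κ : ℝ, κ = r / (64 * (J : ℝ) ^ 2) := ⟨_, rfl⟩
  have hκ : 0 < κ := by rw [hκe]; positivity
  obtain ⟨σ, hσe⟩ : ∃ σ : ℝ, σ = min 1 (κ / (98304 * L0)) := ⟨_, rfl⟩
  have hσ : 0 < σ := by rw [hσe]; positivity
  obtain ⟨m, D, hD, hfil⟩ := hfil σ hσ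
  obtain ⟨ε, hεe⟩ : ∃ ε : ℝ, ε = min 1 (κ / (122880 * L0 * D ^ 2)) := ⟨_, rfl⟩
  have hε : 0 < ε := by rw [hεe]; have : 0 < D := (by linarith); positivity
  obtain ⟨n2, a2, lam2, happ2⟩ := exists_approx 0 hr hε
  obtain ⟨B2, hB2e⟩ : ∃ B2 : ℝ, B2 = ∑ m, ‖a2 m‖ + 1 := ⟨_, rfl⟩
  have hB2 : 0 < B2 := by rw [hB2e]; positivity
  obtain ⟨ξ, hξ0, hξr, hξB⟩ : ∃ ξ : ℝ, 0 < ξ ∧ ξ ≤ r ∧ ξ * B2 ≤ ε :=
    ⟨min r (ε / B2), lt_min hr (by positivity), min_le_left _ _,
      (le_div_iff₀ hB2).1 (min_le_right _ _)⟩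
  obtain ⟨Λ, hΛe⟩ : ∃ Λ : ℝ, Λ = ∑ m, |lam2 m| := ⟨_, rfl⟩
  obtain ⟨η₀, hη₀, hwave⟩ :=
    local_wave_delay (show 0 ≤ Λ by rw [hΛe]; exact Finset.sum_nonneg fun _ _ => abs_nonneg _) hξ0
  obtain ⟨d, hde⟩ : ∃ d : ℕ, d = 2 * (m + L) := ⟨_, rfl⟩
  obtain ⟨K, hKe⟩ : ∃ K : ℝ, K = 4 * (8 * (P : ℝ) ^ 2 / r ^ 2 +
      1024 * L0 * (((d : ℝ) + 1) ^ 2 * D / r) ^ 2) / κ := ⟨_, rfl⟩
  have hK0 : 0 ≤ K := by rw [hKe]; positivity
  obtain ⟨N₀, hN₀⟩ := exists_nat_ge (8 * (L0 + d) / r + 4 / r + J * P + K + 1)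
  have hD0 : 0 < D := by linarith
  refine ⟨min η₀ (1 / 4), lt_min hη₀ (by norm_num), σ ^ 2 / (2 * D ^ 2), by positivity, N₀ + 1,
    fun h N hN hh hfl θ₀ a ha0 ha1 => ?_⟩
  classical
  by_contra hcon
  rw [not_le] at hcon
  have hNpos : 0 < N := by omega
  have hNr : (0 : ℝ) < N := Nat.cast_pos.2 hNpos
  have hle : 8 * (L0 + d) / r + 4 / r + J * P + K + 1 ≤ N :=
    hN₀.trans (Nat.cast_le.2 (by omega))
  have p1 : 0 ≤ 8 * (L0 + d) / r := by positivity
  have p2 : 0 ≤ 4 / r := by positivity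
  have p3 : (0 : ℝ) ≤ J * P := by positivity
  have hbig : 8 * ((P : ℝ) + ((2 ^ L : ℕ) : ℝ) + 1 + d) ≤ r * N := by
    have h1 : 8 * (L0 + d) / r ≤ N := by linarith
    rw [div_le_iff₀ hr] at h1; rw [← hL0e]; linarith
  have hJP : J * P < N := by
    have : ((J * P : ℕ) : ℝ) < N := by push_cast; linarith
    exact_mod_cast this
  have hrN : 2 ≤ r / 2 * N := by
    have h1 : 4 / r ≤ N := by linarith
    rw [div_le_iff₀ hr] at h1; linarith
  obtain ⟨w, hwe⟩ : ∃ w : ℂ, w = exp (θ₀ * I) := ⟨_, rfl⟩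
  have hw1 : ‖w‖ = 1 := by rw [hwe]; exact Complex.norm_exp_ofReal_mul_I _
  obtain ⟨p, hpd, htop, hout, hpD, hsmall⟩ := hfil w hw1
  obtain ⟨c, hce⟩ : ∃ c : ℝ, c = a + δ / 2 := ⟨_, rfl⟩
  obtain ⟨b1, hb1n, hb1⟩ := approx_shift happ1 c
  obtain ⟨b2, hb2n, hb2⟩ := approx_shift happ2 c
  have hup : ∀ z : ℂ, ‖z‖ = 1 → ‖pol h N z‖ ≤ 2 * Real.sqrt N := fun z hz =>
    (hfl z hz).2.trans (mul_le_mul_of_nonneg_right
      (by linarith [min_le_right η₀ (1 / 4 : ℝ)]) (Real.sqrt_nonneg _))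
  obtain ⟨ζ, hζe⟩ : ∃ ζ : ℂ, ζ = exp (2 * Real.pi * I / N) := ⟨_, rfl⟩
  have hζ : IsPrimitiveRoot ζ N := hζe ▸ Complex.isPrimitiveRoot_exp N hNpos.ne'
  rw [← hζe] at hcon
  have hz : ∀ s, ‖ζ ^ s‖ = 1 := fun s => by rw [norm_pow, hζ.norm'_eq_one hNpos.ne', one_pow]
  choose t ht htd htw using fun s =>
    hwave h N hNpos _ (le_min hη₀.le (by norm_num)) (min_le_left _ _) hfl (ζ ^ s) (hz s)
  obtain ⟨A, hAe⟩ : ∃ A : Finset ℕ, A = (range N).filter fun s =>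
      ‖ζ ^ s - w‖ ≤ ω ∧ delay h N (ζ ^ s) ∈ Set.Icc a (a + δ) := ⟨_, rfl⟩
  have hAc : (A.card : ℝ) < σ ^ 2 / (2 * D ^ 2) * N := by
    rwa [show {s : ℕ | s < N ∧ ‖ζ ^ s - exp (θ₀ * I)‖ ≤ ω ∧
        delay h N (ζ ^ s) ∈ Set.Icc a (a + δ)} = (A : Set ℕ) by
      ext s; simp [hAe, hwe], Set.ncard_coe_finset] at hcon
  have hconj : ∀ s < N, conj (ζ ^ s) = ζ ^ ((N - s) % N) := fun s hs => by
    rw [← Complex.inv_eq_conj (hz s), ← pow_eq_pow_mod _ hζ.pow_eq_one]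
    refine inv_eq_of_mul_eq_one_right ?_
    rw [← pow_add, show s + (N - s) = N by omega, hζ.pow_eq_one]
  obtain ⟨E, hEe⟩ : ∃ E : Finset ℕ,
      E = A ∪ (range N).filter fun s => (N - s) % N ∈ A := ⟨_, rfl⟩
  have hE : (E.card : ℝ) * D ^ 2 ≤ σ ^ 2 * N := by
    have h1 : ((range N).filter fun s => (N - s) % N ∈ A).card ≤ A.card :=
      card_le_card_of_injOn (fun s => (N - s) % N) (fun s hs => (mem_filter.1 hs).2)
        fun s hs s' hs' he => by
          have a1 := mem_range.1 (mem_filter.1 hs).1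
          have a2 := mem_range.1 (mem_filter.1 hs').1
          refine hζ.pow_inj a1 a2 ((starRingEnd ℂ).injective ?_)
          rw [hconj s a1, hconj s' a2]
          exact congrArg (ζ ^ ·) he
    have h2 : (E.card : ℝ) ≤ 2 * A.card := by
      have := card_union_le A ((range N).filter fun s => (N - s) % N ∈ A)
      rw [hEe]; exact_mod_cast this.trans (by omega)
    have h3 := mul_le_mul_of_nonneg_right (h2.trans (mul_le_mul_of_nonneg_left hAc.le zero_le_two))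
      (sq_nonneg D)
    refine h3.trans (le_of_eq ?_)
    field_simp
  have hfar : ∀ s < N, delay h N (ζ ^ s) ∈ Set.Icc a (a + δ) → s ∉ A →
      (ζ ^ s * conj w).re ≤ 1 - ω1 ^ 2 / 2 := fun s hsN hzmem hsA => by
    have hgt : ω < ‖ζ ^ s - w‖ := by
      by_contra hle'
      refine hsA ?_
      rw [hAe]
      exact mem_filter.2 ⟨mem_range.2 hsN, not_lt.1 hle', hzmem⟩
    have h1 : ω1 ^ 2 ≤ ‖ζ ^ s - w‖ ^ 2 := by
      refine pow_le_pow_left₀ hω1.le ?_ 2
      rw [hω1e]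
      exact (min_le_left _ _).trans hgt.le
    rw [← Complex.normSq_eq_norm_sq, Complex.normSq_sub, Complex.normSq_eq_norm_sq,
      Complex.normSq_eq_norm_sq, hz, hw1] at h1
    linarith
  have hp' : ∀ s < N, 0 < tent c r (t s) → s ∉ E → ‖aeval (ζ ^ s) p‖ ≤ σ := fun s hsN hs hsE => by
    have hnear := abs_lt.1
      (tent_pos hr (abs_le.2 ⟨by linarith [(ht s).1], by linarith [(ht s).2]⟩) hs)
    have hd := abs_le.1 (htd s)
    have hmem : delay h N (ζ ^ s) ∈ Set.Icc a (a + δ) := ⟨by linarith, by linarith⟩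
    rw [hEe, mem_union, mem_filter, mem_range] at hsE
    refine hsmall _ (hz s) (hfar s hsN hmem fun hA => hsE (Or.inl hA)) ?_
    rw [hconj s hsN]
    refine hfar _ (Nat.mod_lt _ hNpos) ?_ fun hA => hsE (Or.inr ⟨hsN, hA⟩)
    rw [← hconj s hsN, delay_conj]
    exact hmem
  rw [← hde] at hpd hpD
  have hS := window_out hr b2 lam2 hε hb2 hD hσ.le
    (by simp only [hb2n]; rw [← hB2e]; exact hξB) hξ0.le hNpos hh hζ hpd hpD
    (fun s => hup _ (hz s)) t
    (fun s i => htw s _ (by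
      rw [hΛe]
      exact single_le_sum (f := fun i => |lam2 i|) (fun _ _ => abs_nonneg _) (mem_univ i))) E hE hp'
  have hupper := shift_le_out (c := c) hr (by linarith) (by linarith) hPe hde htop hout hh hbig
  rw [← hL0e] at hupper
  have hlower := window_energy b1 lam1 hb1 (A := A1) (by simp only [hb1n]; exact hA1e.ge) hNpos hh
    hup hPpos hJ2 hJP
  have hmass := tent_mass (c := c) (r := r / 2) (by linarith) hNpos hrN (by linarith) (by linarith)
  have hmass' : ∑ k ∈ range N, tent c (r / 2) ((k : ℝ) / N) ^ 2 =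
      ∑ k ∈ range N, (tent c (r / 2) ((k : ℝ) / N) * h k) ^ 2 := sum_congr rfl fun k hk => by
    rw [mul_pow, ← sq_abs (h k), hh k (mem_range.1 hk)]; ring
  rw [hmass'] at hmass
  refine no_gap (Nat.one_le_cast.2 hNpos) hr hJr hL0 hJ1 hκe (by linarith) hlower hmass hupper hS
    hσ.le (hσe.trans_le (min_le_left _ _)) ((le_div_iff₀ (by positivity)).1
      (hσe.trans_le (min_le_right _ _))) hε.le (hεe.trans_le (min_le_left _ _))
    ((le_div_iff₀ (by have : 0 < D := (by linarith); positivity)).1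
      (hεe.trans_le (min_le_right _ _))) ?_
  rw [← hKe]
  linarith

end Vale.Agent.P110.Dense
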